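import Mathlib

/-!
# Sensitivity and block sensitivity of Boolean functions

Definitions (for a function on `ι → Bool`, `ι` a finite index type) and the behaviour of
the two measures under composition of Boolean functions.
-/

namespace Vale.Agent.H85

open Finset

variable {ι κ : Type*}

/-- `flipSet x B` is `x` with exactly the coordinates in `B` negated. -/
def flipSet [DecidableEq ι] (x : ι → Bool) (B : Finset ι) : ι → Bool :=
  fun i => if i ∈ B then !(x i) else x i

/-- The sensitivity of `f` at `x`: the number of coordinates whose flip changes `f`. -/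
def sensAt [Fintype ι] [DecidableEq ι] (f : (ι → Bool) → Bool) (x : ι → Bool) : ℕ :=
  (univ.filter (fun i => f (flipSet x {i}) ≠ f x)).card

/-- The sensitivity of `f`: the maximum over all inputs of the sensitivity at the input. -/
def sens [Fintype ι] [DecidableEq ι] (f : (ι → Bool) → Bool) : ℕ :=
  (univ : Finset (ι → Bool)).sup (sensAt f)

/-- `F` is a family of pairwise disjoint nonempty blocks, each of which changes `f` when
flipped at `x`. -/
def IsBlockFamily [DecidableEq ι] (f : (ι → Bool) → Bool) (x : ι → Bool)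
    (F : Finset (Finset ι)) : Prop :=
  (∀ B ∈ F, B.Nonempty ∧ f (flipSet x B) ≠ f x) ∧
    ∀ B ∈ F, ∀ B' ∈ F, B ≠ B' → Disjoint B B'

open Classical in
/-- The block sensitivity of `f` at `x`: the largest size of a family of pairwise disjoint
nonempty blocks each of which changes `f` when flipped at `x`. -/
noncomputable def blockSensAt [Fintype ι] [DecidableEq ι] (f : (ι → Bool) → Bool)
    (x : ι → Bool) : ℕ :=
  ((univ : Finset (Finset (Finset ι))).filter (fun F => IsBlockFamily f x F)).sup Finset.card

/-- The block sensitivity of `f`: the maximum over all inputs. -/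
noncomputable def blockSens [Fintype ι] [DecidableEq ι] (f : (ι → Bool) → Bool) : ℕ :=
  (univ : Finset (ι → Bool)).sup (blockSensAt f)

section basic

variable [Fintype ι] [DecidableEq ι]

theorem sensAt_le_sens (f : (ι → Bool) → Bool) (x : ι → Bool) : sensAt f x ≤ sens f :=
  Finset.le_sup (f := sensAt f) (mem_univ x)

theorem sens_le_iff (f : (ι → Bool) → Bool) (s : ℕ) : sens f ≤ s ↔ ∀ x, sensAt f x ≤ s := by
  unfold sens
  rw [Finset.sup_le_iff]
  simp

theorem card_le_blockSensAt {f : (ι → Bool) → Bool} {x : ι → Bool} {F : Finset (Finset ι)}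
    (hF : IsBlockFamily f x F) : F.card ≤ blockSensAt f x := by
  classical
  unfold blockSensAt
  exact Finset.le_sup (f := Finset.card) (by simp [hF])

theorem exists_family_blockSensAt (f : (ι → Bool) → Bool) (x : ι → Bool) :
    ∃ F : Finset (Finset ι), IsBlockFamily f x F ∧ F.card = blockSensAt f x := by
  classical
  have hne : ((univ : Finset (Finset (Finset ι))).filter (fun F => IsBlockFamily f x F)).Nonempty := by
    refine ⟨∅, ?_⟩
    rw [Finset.mem_filter]
    exact ⟨mem_univ _, by simp [IsBlockFamily]⟩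
  obtain ⟨F, hF, hcard⟩ := Finset.exists_mem_eq_sup _ hne Finset.card
  refine ⟨F, ?_, ?_⟩
  · simpa using hF
  · unfold blockSensAt
    exact hcard.symm

theorem blockSensAt_le_blockSens (f : (ι → Bool) → Bool) (x : ι → Bool) :
    blockSensAt f x ≤ blockSens f :=
  Finset.le_sup (f := blockSensAt f) (mem_univ x)

theorem exists_blockSens (f : (ι → Bool) → Bool) :
    ∃ (x : ι → Bool) (F : Finset (Finset ι)), IsBlockFamily f x F ∧ F.card = blockSens f := by
  have hne : (univ : Finset (ι → Bool)).Nonempty := ⟨fun _ => false, mem_univ _⟩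
  obtain ⟨x, -, hx⟩ := Finset.exists_mem_eq_sup _ hne (blockSensAt f)
  obtain ⟨F, hF, hcard⟩ := exists_family_blockSensAt f x
  refine ⟨x, F, hF, ?_⟩
  unfold blockSens
  rw [hx, hcard]

end basic


/-! ### Moving the base point to the all-false input -/

section shift

variable [DecidableEq ι]

/-- `shiftFn f x₀` is `y ↦ f (y + x₀) + f x₀` (addition mod 2): it vanishes at the all-false
input and has the same sensitivity and block structure as `f`, moved from `x₀` to `0`. -/
def shiftFn (f : (ι → Bool) → Bool) (x₀ : ι → Bool) : (ι → Bool) → Bool :=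
  fun y => xor (f (fun i => xor (y i) (x₀ i))) (f x₀)

omit [DecidableEq ι] in
theorem shiftFn_zero (f : (ι → Bool) → Bool) (x₀ : ι → Bool) :
    shiftFn f x₀ (fun _ => false) = false := by
  simp [shiftFn]

theorem xor_flipSet (y x₀ : ι → Bool) (B : Finset ι) :
    (fun i => xor (flipSet y B i) (x₀ i)) = flipSet (fun i => xor (y i) (x₀ i)) B := by
  funext i
  unfold flipSet
  by_cases h : i ∈ B <;> simp [h]

theorem sensAt_shiftFn [Fintype ι] (f : (ι → Bool) → Bool) (x₀ y : ι → Bool) :
    sensAt (shiftFn f x₀) y = sensAt f (fun i => xor (y i) (x₀ i)) := by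
  unfold sensAt
  congr 1
  ext i
  simp only [mem_filter, mem_univ, true_and, shiftFn, xor_flipSet]
  cases f (flipSet (fun i => xor (y i) (x₀ i)) {i}) <;> cases f (fun i => xor (y i) (x₀ i)) <;>
    cases f x₀ <;> simp

theorem isBlockFamily_shiftFn {f : (ι → Bool) → Bool} {x₀ : ι → Bool} {F : Finset (Finset ι)}
    (hF : IsBlockFamily f x₀ F) : IsBlockFamily (shiftFn f x₀) (fun _ => false) F := by
  refine ⟨fun B hB => ⟨(hF.1 B hB).1, ?_⟩, hF.2⟩
  have h := (hF.1 B hB).2
  rw [shiftFn_zero]
  simp only [shiftFn, xor_flipSet]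
  have : (fun i => xor ((fun _ : ι => false) i) (x₀ i)) = x₀ := by funext i; simp
  rw [this]
  cases hb : f (flipSet x₀ B) <;> cases hc : f x₀ <;> simp_all

end shift

/-! ### Reindexing along an equivalence -/

section reindex

variable [DecidableEq ι] [DecidableEq κ]

/-- Transport a Boolean function along an equivalence of index types. -/
def reindexFn (e : ι ≃ κ) (f : (ι → Bool) → Bool) : (κ → Bool) → Bool :=
  fun x => f (fun i => x (e i))

theorem flipSet_reindex (e : ι ≃ κ) (x : κ → Bool) (B : Finset ι) :
    (fun i => flipSet x (B.map e.toEmbedding) (e i)) = flipSet (fun i => x (e i)) B := by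
  funext i
  simp [flipSet]

theorem sensAt_reindexFn [Fintype ι] [Fintype κ] (e : ι ≃ κ) (f : (ι → Bool) → Bool)
    (x : κ → Bool) : sensAt (reindexFn e f) x = sensAt f (fun i => x (e i)) := by
  unfold sensAt
  rw [← Finset.card_map e.toEmbedding]
  congr 1
  ext k
  rw [Finset.mem_filter, Finset.mem_map]
  have key : ∀ i, reindexFn e f (flipSet x {e i}) = f (flipSet (fun i => x (e i)) {i}) := by
    intro i
    have h2 := flipSet_reindex e x {i}
    simp only [map_singleton, Equiv.coe_toEmbedding] at h2
    show f (fun i' => flipSet x {e i} (e i')) = _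
    rw [h2]
  have key0 : reindexFn e f x = f (fun i => x (e i)) := rfl
  constructor
  · rintro ⟨-, h⟩
    refine ⟨e.symm k, ?_, by simp⟩
    rw [Finset.mem_filter]
    refine ⟨mem_univ _, ?_⟩
    rw [← key, ← key0]
    simpa using h
  · rintro ⟨i, hi, rfl⟩
    rw [Finset.mem_filter] at hi
    refine ⟨mem_univ _, ?_⟩
    simp only [Equiv.coe_toEmbedding]
    rw [key, key0]
    exact hi.2

theorem isBlockFamily_reindexFn (e : ι ≃ κ) {f : (ι → Bool) → Bool} {F : Finset (Finset ι)}
    (hF : IsBlockFamily f (fun _ => false) F) :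
    IsBlockFamily (reindexFn e f) (fun _ => false)
      (F.map (Finset.mapEmbedding e.toEmbedding).toEmbedding) := by
  constructor
  · intro B hB
    rw [Finset.mem_map] at hB
    obtain ⟨B₀, hB₀, rfl⟩ := hB
    refine ⟨?_, ?_⟩
    · simpa [Finset.mapEmbedding] using (hF.1 B₀ hB₀).1
    · have h2 := flipSet_reindex e (fun _ => false) B₀
      simp only [reindexFn]
      have h3 : (Finset.mapEmbedding e.toEmbedding).toEmbedding B₀ = B₀.map e.toEmbedding := rfl
      rw [h3, h2]
      exact (hF.1 B₀ hB₀).2
  · intro B hB B' hB' hne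
    rw [Finset.mem_map] at hB hB'
    obtain ⟨B₀, hB₀, rfl⟩ := hB
    obtain ⟨B₁, hB₁, rfl⟩ := hB'
    have hne' : B₀ ≠ B₁ := fun h => hne (by rw [h])
    have hd := hF.2 B₀ hB₀ B₁ hB₁ hne'
    have h3 : ∀ B : Finset ι, (Finset.mapEmbedding e.toEmbedding).toEmbedding B = B.map e.toEmbedding :=
      fun _ => rfl
    rw [h3, h3, Finset.disjoint_map]
    exact hd

end reindex


/-! ### Composition -/

section comp

/-- The composition `f ∘ g`: each variable of `f` is replaced by a copy of `g` on fresh
variables. -/
def compFn (f : (ι → Bool) → Bool) (g : (κ → Bool) → Bool) : (ι × κ → Bool) → Bool :=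
  fun x => f (fun i => g (fun j => x (i, j)))

variable [DecidableEq ι] [DecidableEq κ]

theorem inner_flip_eq (g : (κ → Bool) → Bool) (x : ι × κ → Bool) (i : ι) (j : κ)
    (h : g (flipSet (fun j' => x (i, j')) {j}) = g (fun j' => x (i, j'))) :
    (fun i' => g (fun j' => flipSet x {(i, j)} (i', j'))) = fun i' => g (fun j' => x (i', j')) := by
  funext i'
  by_cases hi : i' = i
  · subst hi
    have : (fun j' => flipSet x {(i', j)} (i', j')) = flipSet (fun j' => x (i', j')) {j} := by
      funext j'
      simp [flipSet]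
    rw [this, h]
  · have : (fun j' => flipSet x {(i, j)} (i', j')) = fun j' => x (i', j') := by
      funext j'
      simp [flipSet, hi]
    rw [this]

theorem inner_flip_ne (g : (κ → Bool) → Bool) (x : ι × κ → Bool) (i : ι) (j : κ)
    (h : g (flipSet (fun j' => x (i, j')) {j}) ≠ g (fun j' => x (i, j'))) :
    (fun i' => g (fun j' => flipSet x {(i, j)} (i', j'))) =
      flipSet (fun i' => g (fun j' => x (i', j'))) {i} := by
  funext i'
  by_cases hi : i' = i
  · subst hi
    have : (fun j' => flipSet x {(i', j)} (i', j')) = flipSet (fun j' => x (i', j')) {j} := by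
      funext j'
      simp [flipSet]
    rw [this]
    simp only [flipSet, mem_singleton, if_true]
    cases h1 : g (flipSet (fun j' => x (i', j')) {j}) <;>
      cases h2 : g (fun j' => x (i', j')) <;> simp_all [flipSet]
  · have : (fun j' => flipSet x {(i, j)} (i', j')) = fun j' => x (i', j') := by
      funext j'
      simp [flipSet, hi]
    rw [this]
    simp [flipSet, hi]

theorem sensAt_compFn_le [Fintype ι] [Fintype κ] (f : (ι → Bool) → Bool)
    (g : (κ → Bool) → Bool) (s s' : ℕ) (hf : ∀ y, sensAt f y ≤ s) (hg : ∀ y, sensAt g y ≤ s')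
    (x : ι × κ → Bool) : sensAt (compFn f g) x ≤ s * s' := by
  set y : ι → Bool := fun i => g (fun j => x (i, j)) with hy
  set A : Finset ι := univ.filter (fun i => f (flipSet y {i}) ≠ f y) with hA
  set Bs : ι → Finset κ := fun i =>
    univ.filter (fun j => g (flipSet (fun j' => x (i, j')) {j}) ≠ g (fun j' => x (i, j'))) with hBs
  have hsub : univ.filter (fun p : ι × κ => compFn f g (flipSet x {p}) ≠ compFn f g x) ⊆
      A.biUnion (fun i => (Bs i).image (Prod.mk i)) := by
    intro p hp
    rw [Finset.mem_filter] at hp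
    obtain ⟨i, j⟩ := p
    have hp2 := hp.2
    rw [Finset.mem_biUnion]
    by_cases hgj : g (flipSet (fun j' => x (i, j')) {j}) = g (fun j' => x (i, j'))
    · exfalso
      apply hp2
      show f (fun i' => g (fun j' => flipSet x {(i, j)} (i', j'))) = f (fun i' => g (fun j' => x (i', j')))
      rw [inner_flip_eq g x i j hgj]
    · refine ⟨i, ?_, ?_⟩
      · rw [hA, Finset.mem_filter]
        refine ⟨mem_univ _, ?_⟩
        intro hcontra
        apply hp2
        show f (fun i' => g (fun j' => flipSet x {(i, j)} (i', j'))) = f (fun i' => g (fun j' => x (i', j')))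
        rw [inner_flip_ne g x i j hgj]
        exact hcontra
      · rw [Finset.mem_image]
        refine ⟨j, ?_, rfl⟩
        rw [hBs, Finset.mem_filter]
        exact ⟨mem_univ _, hgj⟩
  have hA_card : A.card ≤ s := hf y
  have hB_card : ∀ i, (Bs i).card ≤ s' := fun i => hg (fun j' => x (i, j'))
  calc sensAt (compFn f g) x
      ≤ (A.biUnion (fun i => (Bs i).image (Prod.mk i))).card := Finset.card_le_card hsub
    _ ≤ ∑ i ∈ A, ((Bs i).image (Prod.mk i)).card := Finset.card_biUnion_le
    _ ≤ ∑ _i ∈ A, s' := Finset.sum_le_sum (fun i _ => le_trans Finset.card_image_le (hB_card i))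
    _ = A.card * s' := by rw [Finset.sum_const, smul_eq_mul]
    _ ≤ s * s' := Nat.mul_le_mul_right s' hA_card

omit [DecidableEq ι] [DecidableEq κ] in
theorem compFn_zero (f : (ι → Bool) → Bool) (g : (κ → Bool) → Bool)
    (hg0 : g (fun _ => false) = false) :
    compFn f g (fun _ => false) = f (fun _ => false) := by
  simp [compFn, hg0]

theorem flipSet_zero (B : Finset ι) : flipSet (fun _ => false) B = fun i => decide (i ∈ B) := by
  funext i
  by_cases h : i ∈ B <;> simp [flipSet, h]

theorem compFn_flip_product (f : (ι → Bool) → Bool) (g : (κ → Bool) → Bool)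
    (hg0 : g (fun _ => false) = false) (B : Finset ι) (D : Finset κ)
    (hD : g (flipSet (fun _ => false) D) ≠ g (fun _ => false)) :
    compFn f g (flipSet (fun _ => false) (B ×ˢ D)) = f (flipSet (fun _ => false) B) := by
  have hD1 : g (fun j => decide (j ∈ D)) = true := by
    rw [flipSet_zero, hg0] at hD
    simpa using hD
  unfold compFn
  congr 1
  rw [flipSet_zero, flipSet_zero]
  funext i
  by_cases hi : i ∈ B
  · simp [hi, hD1]
  · simp [hi, hg0]

theorem isBlockFamily_compFn {f : (ι → Bool) → Bool} {g : (κ → Bool) → Bool}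
    {F : Finset (Finset ι)} {G : Finset (Finset κ)}
    (hF : IsBlockFamily f (fun _ => false) F) (hG : IsBlockFamily g (fun _ => false) G)
    (hg0 : g (fun _ => false) = false) :
    IsBlockFamily (compFn f g) (fun _ => false) ((F ×ˢ G).image (fun p => p.1 ×ˢ p.2)) ∧
      ((F ×ˢ G).image (fun p => p.1 ×ˢ p.2)).card = F.card * G.card := by
  refine ⟨⟨?_, ?_⟩, ?_⟩
  · intro E hE
    rw [Finset.mem_image] at hE
    obtain ⟨⟨B, D⟩, hBD, rfl⟩ := hE
    rw [Finset.mem_product] at hBD
    obtain ⟨hB, hD⟩ := hBD
    refine ⟨?_, ?_⟩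
    · exact Finset.Nonempty.product (hF.1 B hB).1 (hG.1 D hD).1
    · show compFn f g (flipSet (fun _ => false) (B ×ˢ D)) ≠ compFn f g (fun _ => false)
      rw [compFn_flip_product f g hg0 B D (hG.1 D hD).2, compFn_zero f g hg0]
      exact (hF.1 B hB).2
  · intro E hE E' hE' hne
    rw [Finset.mem_image] at hE hE'
    obtain ⟨⟨B, D⟩, hBD, rfl⟩ := hE
    obtain ⟨⟨B', D'⟩, hBD', rfl⟩ := hE'
    rw [Finset.mem_product] at hBD hBD'
    rw [Finset.disjoint_product]
    by_cases hB : B = B'
    · right
      have hD : D ≠ D' := by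
        intro hD
        apply hne
        simp [hB, hD]
      exact hG.2 D hBD.2 D' hBD'.2 hD
    · left
      exact hF.2 B hBD.1 B' hBD'.1 hB
  · rw [Finset.card_image_of_injOn, Finset.card_product]
    intro p hp q hq hpq
    rw [Finset.mem_coe, Finset.mem_product] at hp hq
    obtain ⟨B, D⟩ := p
    obtain ⟨B', D'⟩ := q
    simp only at hpq hp hq
    have hBne := (hF.1 B hp.1).1
    have hDne := (hG.1 D hp.2).1
    have hBne' := (hF.1 B' hq.1).1
    have hDne' := (hG.1 D' hq.2).1
    have h1 : B = B' := by
      ext i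
      constructor
      · intro hi
        obtain ⟨j, hj⟩ := hDne
        have : (i, j) ∈ B ×ˢ D := Finset.mem_product.mpr ⟨hi, hj⟩
        rw [hpq] at this
        exact (Finset.mem_product.mp this).1
      · intro hi
        obtain ⟨j, hj⟩ := hDne'
        have : (i, j) ∈ B' ×ˢ D' := Finset.mem_product.mpr ⟨hi, hj⟩
        rw [← hpq] at this
        exact (Finset.mem_product.mp this).1
    have h2 : D = D' := by
      ext j
      constructor
      · intro hj
        obtain ⟨i, hi⟩ := hBne
        have : (i, j) ∈ B ×ˢ D := Finset.mem_product.mpr ⟨hi, hj⟩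
        rw [hpq] at this
        exact (Finset.mem_product.mp this).2
      · intro hj
        obtain ⟨i, hi⟩ := hBne'
        have : (i, j) ∈ B' ×ˢ D' := Finset.mem_product.mpr ⟨hi, hj⟩
        rw [← hpq] at this
        exact (Finset.mem_product.mp this).2
    rw [h1, h2]

end comp


/-! ### Iterated composition and the self-improvement theorem -/

section iterate

/-- For a function `f` vanishing at the all-false input, with all sensitivities at most `s`
and with `m` disjoint sensitive blocks at the all-false input, the `k`-fold composition has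
all sensitivities at most `s ^ k` and `m ^ k` disjoint sensitive blocks there. -/
theorem exists_power {ι : Type} [Fintype ι] [DecidableEq ι] (f : (ι → Bool) → Bool) (s : ℕ)
    (F₀ : Finset (Finset ι)) (hf0 : f (fun _ => false) = false) (hs : ∀ y, sensAt f y ≤ s)
    (hF₀ : IsBlockFamily f (fun _ => false) F₀) (k : ℕ) :
    ∃ (κ : Type) (_ : Fintype κ) (_ : DecidableEq κ) (g : (κ → Bool) → Bool)
      (G : Finset (Finset κ)), g (fun _ => false) = false ∧ (∀ y, sensAt g y ≤ s ^ k) ∧
        IsBlockFamily g (fun _ => false) G ∧ G.card = F₀.card ^ k := by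
  induction k with
  | zero =>
    refine ⟨Unit, inferInstance, inferInstance, fun x => x (), {{()}}, rfl, ?_, ?_, ?_⟩
    · intro y
      unfold sensAt
      calc (univ.filter (fun i : Unit => (fun x : Unit → Bool => x ()) (flipSet y {i}) ≠
            (fun x : Unit → Bool => x ()) y)).card
          ≤ (univ : Finset Unit).card := Finset.card_le_card (Finset.filter_subset _ _)
        _ = 1 := by simp
        _ = s ^ 0 := by simp
    · refine ⟨?_, ?_⟩
      · intro B hB
        rw [Finset.mem_singleton] at hB
        subst hB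
        refine ⟨Finset.singleton_nonempty _, ?_⟩
        simp [flipSet]
      · intro B hB B' hB' hne
        rw [Finset.mem_singleton] at hB hB'
        exact absurd (hB.trans hB'.symm) hne
    · simp
  | succ k ih =>
    obtain ⟨κ, hκ1, hκ2, g, G, hg0, hgs, hG, hGcard⟩ := ih
    refine ⟨κ × ι, inferInstance, inferInstance, compFn g f,
      (G ×ˢ F₀).image (fun p => p.1 ×ˢ p.2), ?_, ?_, ?_, ?_⟩
    · rw [compFn_zero g f hf0, hg0]
    · intro y
      rw [pow_succ]
      exact sensAt_compFn_le g f (s ^ k) s hgs hs y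
    · exact (isBlockFamily_compFn hG hF₀ hf0).1
    · rw [(isBlockFamily_compFn hG hF₀ hf0).2, hGcard, pow_succ]

/-- Powers: for every Boolean function `f` on `Fin n → Bool` and every `k` there is a Boolean
function `g` on `Fin N → Bool` with `sens g ≤ sens f ^ k` and `blockSens f ^ k ≤ blockSens g`. -/
theorem exists_power_fin (n : ℕ) (f : (Fin n → Bool) → Bool) (k : ℕ) :
    ∃ (N : ℕ) (g : (Fin N → Bool) → Bool),
      sens g ≤ sens f ^ k ∧ blockSens f ^ k ≤ blockSens g := by
  obtain ⟨x₀, F₀, hF₀, hcard⟩ := exists_blockSens f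
  set f' := shiftFn f x₀ with hf'
  have hf'0 : f' (fun _ => false) = false := shiftFn_zero f x₀
  have hf's : ∀ y, sensAt f' y ≤ sens f := by
    intro y
    rw [hf', sensAt_shiftFn]
    exact sensAt_le_sens f _
  have hF₀' : IsBlockFamily f' (fun _ => false) F₀ := isBlockFamily_shiftFn hF₀
  obtain ⟨κ, hκ1, hκ2, g, G, hg0, hgs, hG, hGcard⟩ :=
    exists_power f' (sens f) F₀ hf'0 hf's hF₀' k
  refine ⟨Fintype.card κ, reindexFn (Fintype.equivFin κ) g, ?_, ?_⟩
  · rw [sens_le_iff]
    intro y
    rw [sensAt_reindexFn]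
    exact hgs _
  · have hG' := isBlockFamily_reindexFn (Fintype.equivFin κ) hG
    have h1 := card_le_blockSensAt hG'
    rw [Finset.card_map, hGcard, hcard] at h1
    exact le_trans h1 (blockSensAt_le_blockSens _ _)

/-- Self-improvement by powers: if block sensitivity is bounded by `C` times the `γ`-th power
of sensitivity for all Boolean functions on `Fin n → Bool` (all `n`), then the same bound holds
with `C = 1`. -/
theorem blockSens_le_rpow_of_bound (C γ : ℝ) (hγ : 0 ≤ γ)
    (H : ∀ (n : ℕ) (f : (Fin n → Bool) → Bool), (blockSens f : ℝ) ≤ C * (sens f : ℝ) ^ γ)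
    (n : ℕ) (f : (Fin n → Bool) → Bool) : (blockSens f : ℝ) ≤ (sens f : ℝ) ^ γ := by
  obtain ⟨x₀, F₀, hF₀, hcard⟩ := exists_blockSens f
  set f' := shiftFn f x₀ with hf'
  have hf'0 : f' (fun _ => false) = false := shiftFn_zero f x₀
  have hf's : ∀ y, sensAt f' y ≤ sens f := by
    intro y
    rw [hf', sensAt_shiftFn]
    exact sensAt_le_sens f _
  have hF₀' : IsBlockFamily f' (fun _ => false) F₀ := isBlockFamily_shiftFn hF₀
  -- the key family of inequalities
  have key : ∀ k : ℕ, ((blockSens f : ℝ)) ^ k ≤ C * ((sens f : ℝ) ^ γ) ^ k := by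
    intro k
    obtain ⟨κ, hκ1, hκ2, g, G, hg0, hgs, hG, hGcard⟩ :=
      exists_power f' (sens f) F₀ hf'0 hf's hF₀' k
    set e := Fintype.equivFin κ with he
    set g' := reindexFn e g with hg'
    have hg's : sens g' ≤ sens f ^ k := by
      rw [sens_le_iff]
      intro y
      rw [hg', sensAt_reindexFn]
      exact hgs _
    have hG' := isBlockFamily_reindexFn e hG
    have hbs : F₀.card ^ k ≤ blockSens g' := by
      have h1 := card_le_blockSensAt hG'
      rw [Finset.card_map, hGcard] at h1
      exact le_trans h1 (blockSensAt_le_blockSens g' _)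
    have hH := H (Fintype.card κ) g'
    have hC : 0 ≤ C := by
      by_contra hneg
      have hneg' : C < 0 := lt_of_not_ge hneg
      have h0 : (0 : ℝ) ≤ (sens g' : ℝ) ^ γ := Real.rpow_nonneg (Nat.cast_nonneg _) _
      have h1 : (blockSens g' : ℝ) ≤ 0 := le_trans hH (mul_nonpos_of_nonpos_of_nonneg hneg'.le h0)
      have h2 : (0 : ℝ) ≤ (blockSens g' : ℝ) := Nat.cast_nonneg _
      have h3 : blockSens g' = 0 := by
        have : (blockSens g' : ℝ) = 0 := le_antisymm h1 h2
        exact_mod_cast this
      -- then the bound for the one-variable identity function gives a contradiction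
      have hid := H 1 (fun x => x 0)
      have hid0 : (0 : ℝ) ≤ (sens (fun x : Fin 1 → Bool => x 0) : ℝ) ^ γ :=
        Real.rpow_nonneg (Nat.cast_nonneg _) _
      have hid1 : (blockSens (fun x : Fin 1 → Bool => x 0) : ℝ) ≤ 0 :=
        le_trans hid (mul_nonpos_of_nonpos_of_nonneg hneg'.le hid0)
      have hfam : IsBlockFamily (fun x : Fin 1 → Bool => x 0) (fun _ => false) {{0}} := by
        refine ⟨?_, ?_⟩
        · intro B hB
          rw [Finset.mem_singleton] at hB
          subst hB
          refine ⟨Finset.singleton_nonempty _, ?_⟩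
          simp [flipSet]
        · intro B hB B' hB' hne
          rw [Finset.mem_singleton] at hB hB'
          exact absurd (hB.trans hB'.symm) hne
      have h4 := le_trans (card_le_blockSensAt hfam) (blockSensAt_le_blockSens _ _)
      rw [Finset.card_singleton] at h4
      have h5 : (1 : ℝ) ≤ (blockSens (fun x : Fin 1 → Bool => x 0) : ℝ) := by exact_mod_cast h4
      linarith
    have hpow : (sens g' : ℝ) ^ γ ≤ ((sens f : ℝ) ^ γ) ^ k := by
      have h1 : (sens g' : ℝ) ≤ ((sens f : ℝ)) ^ k := by exact_mod_cast hg's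
      have h2 : (sens g' : ℝ) ^ γ ≤ (((sens f : ℝ)) ^ k) ^ γ :=
        Real.rpow_le_rpow (Nat.cast_nonneg _) h1 hγ
      have h3 : (((sens f : ℝ)) ^ k) ^ γ = ((sens f : ℝ) ^ γ) ^ k := by
        rw [← Real.rpow_natCast, ← Real.rpow_mul (Nat.cast_nonneg _), mul_comm,
          Real.rpow_mul (Nat.cast_nonneg _), Real.rpow_natCast]
      rw [h3] at h2
      exact h2
    calc ((blockSens f : ℝ)) ^ k = ((F₀.card ^ k : ℕ) : ℝ) := by rw [hcard]; push_cast; ring
      _ ≤ (blockSens g' : ℝ) := by exact_mod_cast hbs
      _ ≤ C * (sens g' : ℝ) ^ γ := hH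
      _ ≤ C * ((sens f : ℝ) ^ γ) ^ k := mul_le_mul_of_nonneg_left hpow hC
  -- conclude
  by_contra hcon
  have hlt : (sens f : ℝ) ^ γ < (blockSens f : ℝ) := lt_of_not_ge hcon
  have hb0 : (0 : ℝ) ≤ (sens f : ℝ) ^ γ := Real.rpow_nonneg (Nat.cast_nonneg _) _
  rcases hb0.eq_or_lt with hb | hb
  · have h1 := key 1
    rw [← hb] at h1 hlt
    simp only [pow_one, mul_zero] at h1
    linarith
  · have hq : 1 < (blockSens f : ℝ) / (sens f : ℝ) ^ γ := by
      rw [one_lt_div hb]
      exact hlt
    obtain ⟨k, hk⟩ := pow_unbounded_of_one_lt C hq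
    have h1 := key k
    rw [div_pow, lt_div_iff₀ (pow_pos hb k)] at hk
    linarith

end iterate

end Vale.Agent.H85
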