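import Vale.Agent.H85.BlockSens

/-!
# OR-composition and an asymmetric reformulation of the quadratic bound

`OR_m ∘ g` has 0-sensitivity at most `m * s₀(g)`, 1-sensitivity at most `s₁(g)` and
`m * bs(g, z)` disjoint sensitive blocks at a 0-input.  Together with powers this shows that a
bound `bs ≤ C * s ^ 2` for all Boolean functions forces `bs(g, z) ≤ s₀ * s₁` at every 0-input
`z` whenever (an upper bound for) `s₀` divides (an upper bound for) `s₁`.
-/

namespace Vale.Agent.H85

open Finset

variable {κ : Type*}

/-- The OR of `m` bits. -/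
def orFn (m : ℕ) : (Fin m → Bool) → Bool := fun y => decide (∃ i, y i = true)

theorem orFn_zero (m : ℕ) : orFn m (fun _ => false) = false := by
  simp [orFn]

theorem isBlockFamily_orFn (m : ℕ) :
    IsBlockFamily (orFn m) (fun _ => false) ((univ : Finset (Fin m)).image (fun i => {i})) := by
  refine ⟨?_, ?_⟩
  · intro B hB
    rw [Finset.mem_image] at hB
    obtain ⟨i, -, rfl⟩ := hB
    refine ⟨Finset.singleton_nonempty _, ?_⟩
    rw [orFn_zero]
    have : orFn m (flipSet (fun _ => false) {i}) = true := by
      unfold orFn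
      rw [decide_eq_true_eq]
      exact ⟨i, by simp [flipSet]⟩
    rw [this]
    simp
  · intro B hB B' hB' hne
    rw [Finset.mem_image] at hB hB'
    obtain ⟨i, -, rfl⟩ := hB
    obtain ⟨i', -, rfl⟩ := hB'
    rw [Finset.disjoint_singleton]
    intro h
    exact hne (by rw [h])

theorem card_orFn_family (m : ℕ) :
    ((univ : Finset (Fin m)).image (fun i => ({i} : Finset (Fin m)))).card = m := by
  rw [Finset.card_image_of_injective _ Finset.singleton_injective]
  simp

section

variable [Fintype κ] [DecidableEq κ]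

theorem sensAt_or_compFn_le (m : ℕ) (g : (κ → Bool) → Bool) (c t : ℕ)
    (h0 : ∀ x, g x = false → sensAt g x ≤ c) (h1 : ∀ x, g x = true → sensAt g x ≤ t)
    (x : Fin m × κ → Bool) : sensAt (compFn (orFn m) g) x ≤ max (m * c) t := by
  set Bs : Fin m → Finset κ := fun i =>
    univ.filter (fun j => g (flipSet (fun j' => x (i, j')) {j}) ≠ g (fun j' => x (i, j'))) with hBs
  have hmem : ∀ i j, compFn (orFn m) g (flipSet x {(i, j)}) ≠ compFn (orFn m) g x → j ∈ Bs i := by
    intro i j hp
    rw [hBs, Finset.mem_filter]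
    refine ⟨mem_univ _, ?_⟩
    intro hgj
    apply hp
    show orFn m (fun i' => g (fun j' => flipSet x {(i, j)} (i', j'))) =
      orFn m (fun i' => g (fun j' => x (i', j')))
    rw [inner_flip_eq g x i j hgj]
  by_cases hall : ∀ i, g (fun j' => x (i, j')) = false
  · -- all copies are 0-inputs
    have hsub : univ.filter (fun p : Fin m × κ =>
        compFn (orFn m) g (flipSet x {p}) ≠ compFn (orFn m) g x) ⊆
        (univ : Finset (Fin m)).biUnion (fun i => (Bs i).image (Prod.mk i)) := by
      intro p hp
      rw [Finset.mem_filter] at hp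
      obtain ⟨i, j⟩ := p
      rw [Finset.mem_biUnion]
      exact ⟨i, mem_univ _, Finset.mem_image.mpr ⟨j, hmem i j hp.2, rfl⟩⟩
    have hB_card : ∀ i, (Bs i).card ≤ c := fun i => h0 _ (hall i)
    calc sensAt (compFn (orFn m) g) x
        ≤ ((univ : Finset (Fin m)).biUnion (fun i => (Bs i).image (Prod.mk i))).card :=
          Finset.card_le_card hsub
      _ ≤ ∑ i ∈ (univ : Finset (Fin m)), ((Bs i).image (Prod.mk i)).card := Finset.card_biUnion_le
      _ ≤ ∑ _i ∈ (univ : Finset (Fin m)), c :=
          Finset.sum_le_sum (fun i _ => le_trans Finset.card_image_le (hB_card i))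
      _ = m * c := by rw [Finset.sum_const, smul_eq_mul, Finset.card_univ, Fintype.card_fin]
      _ ≤ max (m * c) t := le_max_left _ _
  · -- some copy is a 1-input
    have hex : ∃ i₀, g (fun j' => x (i₀, j')) = true := by
      by_contra hno
      apply hall
      intro i
      cases hgi : g (fun j' => x (i, j'))
      · rfl
      · exact absurd ⟨i, hgi⟩ hno
    obtain ⟨i₀, hi₀⟩ := hex
    have hsub : univ.filter (fun p : Fin m × κ =>
        compFn (orFn m) g (flipSet x {p}) ≠ compFn (orFn m) g x) ⊆
        (Bs i₀).image (Prod.mk i₀) := by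
      intro p hp
      rw [Finset.mem_filter] at hp
      obtain ⟨i, j⟩ := p
      have hp2 := hp.2
      by_cases hi : i = i₀
      · subst hi
        exact Finset.mem_image.mpr ⟨j, hmem i j hp2, rfl⟩
      · exfalso
        apply hp2
        have e1 : compFn (orFn m) g x = true := by
          show orFn m (fun i' => g (fun j' => x (i', j'))) = true
          unfold orFn
          rw [decide_eq_true_eq]
          exact ⟨i₀, hi₀⟩
        have e2 : compFn (orFn m) g (flipSet x {(i, j)}) = true := by
          show orFn m (fun i' => g (fun j' => flipSet x {(i, j)} (i', j'))) = true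
          unfold orFn
          rw [decide_eq_true_eq]
          refine ⟨i₀, ?_⟩
          have : (fun j' => flipSet x {(i, j)} (i₀, j')) = fun j' => x (i₀, j') := by
            funext j'
            have hne : (i₀, j') ≠ (i, j) := by
              intro h
              exact hi (congrArg Prod.fst h).symm
            simp [flipSet, hne]
          show g (fun j' => flipSet x {(i, j)} (i₀, j')) = true
          rw [this]
          exact hi₀
        rw [e1, e2]
    calc sensAt (compFn (orFn m) g) x
        ≤ ((Bs i₀).image (Prod.mk i₀)).card := Finset.card_le_card hsub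
      _ ≤ (Bs i₀).card := Finset.card_image_le
      _ ≤ t := h1 _ hi₀
      _ ≤ max (m * c) t := le_max_right _ _

end

/-- Negating a function does not change sensitivities. -/
theorem sensAt_not {ι : Type*} [Fintype ι] [DecidableEq ι] (f : (ι → Bool) → Bool)
    (x : ι → Bool) : sensAt (fun y => !f y) x = sensAt f x := by
  unfold sensAt
  congr 1
  ext i
  simp

theorem isBlockFamily_not {ι : Type*} [DecidableEq ι] {f : (ι → Bool) → Bool} {x : ι → Bool}
    {F : Finset (Finset ι)} (hF : IsBlockFamily f x F) :
    IsBlockFamily (fun y => !f y) x F := by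
  refine ⟨fun B hB => ⟨(hF.1 B hB).1, ?_⟩, hF.2⟩
  have h := (hF.1 B hB).2
  simpa using h

/-- If block sensitivity is at most `C` times the square of sensitivity for all Boolean
functions, then at every 0-input `z` of every Boolean function `g` the number of disjoint
sensitive blocks is at most `c * (c * m)`, where `c` bounds the sensitivity of `g` at 0-inputs
and `c * m` bounds it at 1-inputs. -/
theorem card_le_of_quadratic_bound (C : ℝ)
    (H : ∀ (n : ℕ) (f : (Fin n → Bool) → Bool), (blockSens f : ℝ) ≤ C * (sens f : ℝ) ^ 2)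
    (n : ℕ) (g : (Fin n → Bool) → Bool) (c m : ℕ) (z : Fin n → Bool)
    (F : Finset (Finset (Fin n))) (hm : 0 < m)
    (h0 : ∀ x, g x = false → sensAt g x ≤ c) (h1 : ∀ x, g x = true → sensAt g x ≤ c * m)
    (hz : g z = false) (hF : IsBlockFamily g z F) : F.card ≤ c * (c * m) := by
  by_contra hcon
  have hbig : c * (c * m) < F.card := lt_of_not_ge hcon
  -- normalise to the all-false input
  set g' := shiftFn g z with hg'
  have hg'0 : g' (fun _ => false) = false := shiftFn_zero g z
  have hg'val : ∀ y, g' y = g (fun i => xor (y i) (z i)) := by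
    intro y
    simp [hg', shiftFn, hz]
  have hg'0s : ∀ x, g' x = false → sensAt g' x ≤ c := by
    intro x hx
    rw [hg', sensAt_shiftFn]
    exact h0 _ (by rw [← hg'val]; exact hx)
  have hg'1s : ∀ x, g' x = true → sensAt g' x ≤ c * m := by
    intro x hx
    rw [hg', sensAt_shiftFn]
    exact h1 _ (by rw [← hg'val]; exact hx)
  have hF' : IsBlockFamily g' (fun _ => false) F := isBlockFamily_shiftFn hF
  -- the OR of m copies
  set f := compFn (orFn m) g' with hf
  have hf0 : f (fun _ => false) = false := by
    rw [hf, compFn_zero (orFn m) g' hg'0, orFn_zero]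
  have hfs : ∀ y, sensAt f y ≤ c * m := by
    intro y
    have := sensAt_or_compFn_le m g' c (c * m) hg'0s hg'1s y
    rw [Nat.mul_comm m c, max_self] at this
    exact this
  obtain ⟨hfam, hfamcard⟩ := isBlockFamily_compFn (isBlockFamily_orFn m) hF' hg'0
  rw [card_orFn_family] at hfamcard
  set F₀ := (((univ : Finset (Fin m)).image (fun i => ({i} : Finset (Fin m)))) ×ˢ F).image
    (fun p => p.1 ×ˢ p.2) with hF₀
  -- powers
  have key : ∀ k : ℕ, (((m * F.card : ℕ) : ℝ)) ^ k ≤ C * ((((c * m : ℕ) : ℝ)) ^ 2) ^ k := by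
    intro k
    obtain ⟨κ, hκ1, hκ2, G, Gf, hG0, hGs, hGf, hGcard⟩ :=
      exists_power f (c * m) F₀ hf0 hfs hfam k
    set e := Fintype.equivFin κ with he
    set G' := reindexFn e G with hG'
    have hG's : sens G' ≤ (c * m) ^ k := by
      rw [sens_le_iff]
      intro y
      rw [hG', sensAt_reindexFn]
      exact hGs _
    have hbs : (m * F.card) ^ k ≤ blockSens G' := by
      have h1' := card_le_blockSensAt (isBlockFamily_reindexFn e hGf)
      rw [Finset.card_map, hGcard, hfamcard] at h1'
      exact le_trans h1' (blockSensAt_le_blockSens G' _)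
    have hH := H (Fintype.card κ) G'
    have hC : 0 ≤ C := by
      by_contra hneg
      have hneg' : C < 0 := lt_of_not_ge hneg
      have hid := H 1 (fun x => x 0)
      have hid0 : (0 : ℝ) ≤ (sens (fun x : Fin 1 → Bool => x 0) : ℝ) ^ 2 := by positivity
      have hid1 : (blockSens (fun x : Fin 1 → Bool => x 0) : ℝ) ≤ 0 :=
        le_trans hid (mul_nonpos_of_nonpos_of_nonneg hneg'.le hid0)
      have hfam1 : IsBlockFamily (fun x : Fin 1 → Bool => x 0) (fun _ => false) {{0}} := by
        refine ⟨?_, ?_⟩
        · intro B hB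
          rw [Finset.mem_singleton] at hB
          subst hB
          refine ⟨Finset.singleton_nonempty _, ?_⟩
          simp [flipSet]
        · intro B hB B' hB' hne
          rw [Finset.mem_singleton] at hB hB'
          exact absurd (hB.trans hB'.symm) hne
      have h4 := le_trans (card_le_blockSensAt hfam1) (blockSensAt_le_blockSens _ _)
      rw [Finset.card_singleton] at h4
      have h5 : (1 : ℝ) ≤ (blockSens (fun x : Fin 1 → Bool => x 0) : ℝ) := by exact_mod_cast h4
      linarith
    have hpow : (sens G' : ℝ) ^ 2 ≤ ((((c * m : ℕ) : ℝ)) ^ 2) ^ k := by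
      have h1' : (sens G' : ℝ) ≤ (((c * m : ℕ) : ℝ)) ^ k := by exact_mod_cast hG's
      have h2 : (sens G' : ℝ) ^ 2 ≤ ((((c * m : ℕ) : ℝ)) ^ k) ^ 2 :=
        pow_le_pow_left₀ (Nat.cast_nonneg _) h1' 2
      have h3 : ((((c * m : ℕ) : ℝ)) ^ k) ^ 2 = ((((c * m : ℕ) : ℝ)) ^ 2) ^ k := by
        rw [← pow_mul, ← pow_mul, Nat.mul_comm k 2]
      rw [h3] at h2
      exact h2
    calc (((m * F.card : ℕ) : ℝ)) ^ k = (((m * F.card) ^ k : ℕ) : ℝ) := by push_cast; ring
      _ ≤ (blockSens G' : ℝ) := by exact_mod_cast hbs
      _ ≤ C * (sens G' : ℝ) ^ 2 := hH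
      _ ≤ C * ((((c * m : ℕ) : ℝ)) ^ 2) ^ k := mul_le_mul_of_nonneg_left hpow hC
  -- m * |F| > (c m)^2
  have hgt : (c * m) ^ 2 < m * F.card := by
    calc (c * m) ^ 2 = m * (c * (c * m)) := by ring
      _ < m * F.card := Nat.mul_lt_mul_of_pos_left hbig hm
  have hgtR : (((c * m : ℕ) : ℝ)) ^ 2 < ((m * F.card : ℕ) : ℝ) := by exact_mod_cast hgt
  have hb0 : (0 : ℝ) ≤ (((c * m : ℕ) : ℝ)) ^ 2 := by positivity
  rcases hb0.eq_or_lt with hb | hb
  · have h1' := key 1
    rw [← hb] at h1' hgtR
    simp only [pow_one, mul_zero] at h1'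
    linarith
  · have hq : 1 < ((m * F.card : ℕ) : ℝ) / (((c * m : ℕ) : ℝ)) ^ 2 := by
      rw [one_lt_div hb]
      exact hgtR
    obtain ⟨k, hk⟩ := pow_unbounded_of_one_lt C hq
    have h1' := key k
    rw [div_pow, lt_div_iff₀ (pow_pos hb k)] at hk
    linarith

/-- The quadratic bound for all Boolean functions (with some constant) is equivalent to the
asymmetric inequality `bs(g, z) ≤ c * (c * m)` at 0-inputs. -/
theorem quadratic_bound_iff_asymmetric :
    (∃ C : ℝ, ∀ (n : ℕ) (f : (Fin n → Bool) → Bool),
        (blockSens f : ℝ) ≤ C * (sens f : ℝ) ^ 2) ↔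
    (∀ (n : ℕ) (g : (Fin n → Bool) → Bool) (c m : ℕ) (z : Fin n → Bool)
        (F : Finset (Finset (Fin n))), 0 < m →
        (∀ x, g x = false → sensAt g x ≤ c) → (∀ x, g x = true → sensAt g x ≤ c * m) →
        g z = false → IsBlockFamily g z F → F.card ≤ c * (c * m)) := by
  constructor
  · rintro ⟨C, H⟩ n g c m z F hm h0 h1 hz hF
    exact card_le_of_quadratic_bound C H n g c m z F hm h0 h1 hz hF
  · intro H
    refine ⟨1, ?_⟩
    intro n f
    obtain ⟨x₀, F₀, hF₀, hcard⟩ := exists_blockSens f
    have hnat : blockSens f ≤ sens f ^ 2 := by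
      rw [← hcard]
      cases hfx : f x₀
      · have := H n f (sens f) 1 x₀ F₀ Nat.one_pos (fun x _ => sensAt_le_sens f x)
          (fun x _ => by rw [Nat.mul_one]; exact sensAt_le_sens f x) hfx hF₀
        rw [Nat.mul_one] at this
        rw [pow_two]
        exact this
      · have := H n (fun y => !f y) (sens f) 1 x₀ F₀ Nat.one_pos
          (fun x _ => by rw [sensAt_not]; exact sensAt_le_sens f x)
          (fun x _ => by rw [Nat.mul_one, sensAt_not]; exact sensAt_le_sens f x)
          (by simp [hfx]) (isBlockFamily_not hF₀)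
        rw [Nat.mul_one] at this
        rw [pow_two]
        exact this
    rw [one_mul]
    exact_mod_cast hnat

end Vale.Agent.H85
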