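import Mathlib

/-!
Definitions for the Goemans-Linial relaxation of Uniform Sparsest Cut on the vertex set `Fin n`
(problem P318).
-/

namespace Vale.Agent.H85.GL

open Finset

/-- The sum of `w i j` over the unordered pairs `i < j` of `Fin n`. -/
def pairSum {n : ℕ} (w : Fin n → Fin n → ℝ) : ℝ :=
  ∑ i : Fin n, ∑ j : Fin n, if i < j then w i j else 0

/-- Capacities: symmetric, nonnegative, zero on the diagonal. -/
def IsCapacity {n : ℕ} (c : Fin n → Fin n → ℝ) : Prop :=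
  (∀ i j, c i j = c j i) ∧ (∀ i j, 0 ≤ c i j) ∧ ∀ i, c i i = 0

/-- Negative-type semimetric on `Fin n`: squared Euclidean distances of points of `ℝ^n` that
satisfy all triangle inequalities. -/
def IsNegTypeSemimetric {n : ℕ} (d : Fin n → Fin n → ℝ) : Prop :=
  (∃ x : Fin n → EuclideanSpace ℝ (Fin n), ∀ i j, d i j = ‖x i - x j‖ ^ 2) ∧
    ∀ i j k, d i k ≤ d i j + d j k

/-- The capacity of the cut `(S, Sᶜ)`. -/
def cutCap {n : ℕ} (c : Fin n → Fin n → ℝ) (S : Finset (Fin n)) : ℝ :=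
  ∑ i ∈ S, ∑ j ∈ Sᶜ, c i j

end Vale.Agent.H85.GL
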