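import Vale.Agent.H85.GLSmall

/-!
The complete bipartite graphs `K_{t,2}` (`t ≥ 3`) on the vertex set `Fin (t + 2)`: the
Goemans-Linial relaxation of Uniform Sparsest Cut has integrality gap at least
`1 + 4 / (t ^ 2 * (t + 1))` on them (problem P318).
-/

namespace Vale.Agent.H85.GL

open Finset

theorem sum_split (t : ℕ) (f : Fin (t + 2) → ℝ) :
    ∑ i : Fin (t + 2), f i
      = ∑ a : Fin t, f (Fin.castAdd 2 a) + f (Fin.natAdd t 0) + f (Fin.natAdd t 1) := by
  rw [Fin.sum_univ_add, Fin.sum_univ_two, add_assoc]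

/-- For a symmetric weight that vanishes on the diagonal, the sum over all ordered pairs is
twice the sum over the pairs `i < j`. -/
theorem two_pairSum {n : ℕ} (w : Fin n → Fin n → ℝ) (hsym : ∀ i j, w i j = w j i)
    (hdiag : ∀ i, w i i = 0) : ∑ i : Fin n, ∑ j : Fin n, w i j = 2 * pairSum w := by
  have h1 : ∀ i j : Fin n, w i j = (if i < j then w i j else 0) + (if j < i then w j i else 0) := by
    intro i j
    rcases lt_trichotomy i j with h | h | h
    · rw [if_pos h, if_neg (not_lt.mpr h.le), add_zero]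
    · subst h; simp [hdiag]
    · rw [if_neg (not_lt.mpr h.le), if_pos h, zero_add, hsym]
  have h2 : ∑ i : Fin n, ∑ j : Fin n, (if j < i then w j i else 0) = pairSum w := by
    unfold pairSum
    rw [Finset.sum_comm]
  calc ∑ i : Fin n, ∑ j : Fin n, w i j
      = ∑ i : Fin n, ∑ j : Fin n,
          ((if i < j then w i j else 0) + (if j < i then w j i else 0)) := by
        refine Finset.sum_congr rfl (fun i _ => Finset.sum_congr rfl (fun j _ => h1 i j))
    _ = pairSum w + pairSum w := by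
        simp only [Finset.sum_add_distrib]
        rw [h2]
        rfl
    _ = 2 * pairSum w := by ring

/-- Capacities of the complete bipartite graph with sides `{0, …, t - 1}` and `{t, t + 1}`. -/
def cK (t : ℕ) (i j : Fin (t + 2)) : ℝ :=
  if (i.val < t ∧ t ≤ j.val) ∨ (t ≤ i.val ∧ j.val < t) then 1 else 0

theorem cK_AA (t : ℕ) (a a' : Fin t) : cK t (Fin.castAdd 2 a) (Fin.castAdd 2 a') = 0 := by
  have h := a.isLt
  have h' := a'.isLt
  simp only [cK, Fin.val_castAdd]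
  rw [if_neg]
  omega

theorem cK_AB (t : ℕ) (a : Fin t) (b : Fin 2) :
    cK t (Fin.castAdd 2 a) (Fin.natAdd t b) = 1 := by
  have h := a.isLt
  simp only [cK, Fin.val_castAdd, Fin.val_natAdd]
  rw [if_pos]
  omega

theorem cK_BA (t : ℕ) (b : Fin 2) (a : Fin t) :
    cK t (Fin.natAdd t b) (Fin.castAdd 2 a) = 1 := by
  have h := a.isLt
  simp only [cK, Fin.val_castAdd, Fin.val_natAdd]
  rw [if_pos]
  omega

theorem cK_BB (t : ℕ) (b b' : Fin 2) : cK t (Fin.natAdd t b) (Fin.natAdd t b') = 0 := by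
  simp only [cK, Fin.val_natAdd]
  rw [if_neg]
  omega

theorem cK_capacity (t : ℕ) : IsCapacity (cK t) := by
  refine ⟨fun i j => ?_, fun i j => ?_, fun i => ?_⟩
  · unfold cK
    congr 1
    apply propext
    constructor <;> (intro h; omega)
  · unfold cK
    split_ifs <;> norm_num
  · unfold cK
    rw [if_neg]
    omega

/-- Integer points of `ℝ^(t+2)`: `t e_i - u` for `i < t`, `u` for `i = t` and `-u` for
`i = t + 1`, where `u = e_0 + … + e_{t-1}`. -/
def vK (t : ℕ) (i k : Fin (t + 2)) : ℝ :=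
  if i.val < t then (if k = i then (t : ℝ) else 0) - (if k.val < t then 1 else 0)
  else (if i.val = t then 1 else -1) * (if k.val < t then 1 else 0)

theorem vK_AA (t : ℕ) (a0 a : Fin t) :
    vK t (Fin.castAdd 2 a0) (Fin.castAdd 2 a) = (if a = a0 then (t : ℝ) else 0) - 1 := by
  have h := a.isLt
  have h0 := a0.isLt
  simp only [vK, Fin.val_castAdd, Fin.castAdd_inj]
  rw [if_pos h0, if_pos h]

theorem vK_AB (t : ℕ) (a0 : Fin t) (b : Fin 2) :
    vK t (Fin.castAdd 2 a0) (Fin.natAdd t b) = 0 := by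
  have h0 := a0.isLt
  have hne : ¬ (Fin.natAdd t b = Fin.castAdd 2 a0) := by
    intro h
    have := congrArg Fin.val h
    simp only [Fin.val_castAdd, Fin.val_natAdd] at this
    omega
  have hlt : ¬ (t + b.val < t) := by omega
  simp only [vK, Fin.val_castAdd, Fin.val_natAdd]
  rw [if_pos h0, if_neg hne, if_neg hlt, sub_zero]

theorem vK_BA (t : ℕ) (b : Fin 2) (a : Fin t) :
    vK t (Fin.natAdd t b) (Fin.castAdd 2 a) = if b.val = 0 then 1 else -1 := by
  have h := a.isLt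
  have hlt : ¬ (t + b.val < t) := by omega
  simp only [vK, Fin.val_castAdd, Fin.val_natAdd]
  rw [if_neg hlt, if_pos h, mul_one]
  congr 1
  apply propext
  omega

theorem vK_BB (t : ℕ) (b b' : Fin 2) :
    vK t (Fin.natAdd t b) (Fin.natAdd t b') = 0 := by
  have hlt : ¬ (t + b.val < t) := by omega
  have hlt' : ¬ (t + b'.val < t) := by omega
  simp only [vK, Fin.val_natAdd]
  rw [if_neg hlt, if_neg hlt', mul_zero]

/-- The normalising constant `t^4 + t^3 + 4 t`. -/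
def ZK (t : ℕ) : ℝ := (t : ℝ) ^ 4 + (t : ℝ) ^ 3 + 4 * (t : ℝ)

theorem ZK_nonneg (t : ℕ) : 0 ≤ ZK t := by
  unfold ZK
  positivity

/-- The points `vK` scaled so that the squared distances add up to one. -/
noncomputable def xK (t : ℕ) (i : Fin (t + 2)) : EuclideanSpace ℝ (Fin (t + 2)) :=
  (Real.sqrt (ZK t))⁻¹ • WithLp.toLp 2 (vK t i)

/-- The squared distances of the points `xK`. -/
noncomputable def dK (t : ℕ) (i j : Fin (t + 2)) : ℝ := ‖xK t i - xK t j‖ ^ 2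

theorem dK_eq (t : ℕ) (i j : Fin (t + 2)) :
    dK t i j = (∑ k : Fin (t + 2), (vK t i k - vK t j k) ^ 2) / ZK t := by
  unfold dK xK
  rw [← smul_sub, norm_smul, mul_pow, EuclideanSpace.real_norm_sq_eq, Real.norm_eq_abs, sq_abs,
    inv_pow, Real.sq_sqrt (ZK_nonneg t)]
  simp only [WithLp.ofLp_sub, Pi.sub_apply]
  ring

theorem dK_symm (t : ℕ) (i j : Fin (t + 2)) : dK t i j = dK t j i := by
  unfold dK
  rw [norm_sub_rev]

theorem dK_self (t : ℕ) (i : Fin (t + 2)) : dK t i i = 0 := by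
  unfold dK
  simp

theorem dK_AA (t : ℕ) (a a' : Fin t) :
    dK t (Fin.castAdd 2 a) (Fin.castAdd 2 a')
      = if a = a' then 0 else 2 * (t : ℝ) ^ 2 / ZK t := by
  by_cases h : a = a'
  · subst h
    rw [if_pos rfl, dK_self]
  · rw [if_neg h, dK_eq, sum_split]
    simp only [vK_AA, vK_AB, sub_self]
    have e : ∀ x : Fin t, ((if x = a then (t : ℝ) else 0) - 1 - ((if x = a' then (t : ℝ) else 0) - 1)) ^ 2
        = (if x = a then (t : ℝ) ^ 2 else 0) + (if x = a' then (t : ℝ) ^ 2 else 0) := by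
      intro x
      by_cases h1 : x = a
      · have h2 : ¬ x = a' := fun h2 => h (h1.symm.trans h2)
        rw [if_pos h1, if_neg h2, if_pos h1, if_neg h2]
        ring
      · by_cases h2 : x = a'
        · rw [if_neg h1, if_pos h2, if_neg h1, if_pos h2]
          ring
        · rw [if_neg h1, if_neg h2, if_neg h1, if_neg h2]
          ring
    simp only [e, Finset.sum_add_distrib, Finset.sum_ite_eq', Finset.mem_univ, if_true]
    ring

theorem dK_AB (t : ℕ) (a : Fin t) (b : Fin 2) :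
    dK t (Fin.castAdd 2 a) (Fin.natAdd t b) = (t : ℝ) ^ 2 / ZK t := by
  rw [dK_eq, sum_split]
  simp only [vK_AA, vK_AB, vK_BA, vK_BB, sub_self]
  have e : ∀ x : Fin t, ((if x = a then (t : ℝ) else 0) - 1 - (if b.val = 0 then (1 : ℝ) else -1)) ^ 2
      = (if x = a then (t : ℝ) ^ 2 - 2 * (t : ℝ) * (1 + (if b.val = 0 then (1 : ℝ) else -1)) else 0)
        + (1 + (if b.val = 0 then (1 : ℝ) else -1)) ^ 2 := by
    intro x
    by_cases h1 : x = a
    · rw [if_pos h1, if_pos h1]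
      ring
    · rw [if_neg h1, if_neg h1]
      ring
  simp only [e, Finset.sum_add_distrib, Finset.sum_ite_eq', Finset.mem_univ, if_true,
    Finset.sum_const, Finset.card_univ, Fintype.card_fin, nsmul_eq_mul]
  by_cases hb : b.val = 0
  · rw [if_pos hb]
    ring
  · rw [if_neg hb]
    ring

theorem dK_BA (t : ℕ) (b : Fin 2) (a : Fin t) :
    dK t (Fin.natAdd t b) (Fin.castAdd 2 a) = (t : ℝ) ^ 2 / ZK t := by
  rw [dK_symm, dK_AB]

theorem dK_B01 (t : ℕ) : dK t (Fin.natAdd t 0) (Fin.natAdd t 1) = 4 * (t : ℝ) / ZK t := by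
  rw [dK_eq, sum_split]
  simp only [vK_BA, vK_BB, sub_self]
  simp
  ring

theorem dK_B10 (t : ℕ) : dK t (Fin.natAdd t 1) (Fin.natAdd t 0) = 4 * (t : ℝ) / ZK t := by
  rw [dK_symm, dK_B01]

theorem fin_cases_add {t : ℕ} (P : Fin (t + 2) → Prop) (hA : ∀ a : Fin t, P (Fin.castAdd 2 a))
    (h0 : P (Fin.natAdd t 0)) (h1 : P (Fin.natAdd t 1)) : ∀ i, P i := by
  intro i
  refine Fin.addCases hA (fun b => ?_) i
  revert b
  rw [Fin.forall_fin_two]
  exact ⟨h0, h1⟩

theorem ZK_pos (t : ℕ) (ht : 1 ≤ t) : 0 < ZK t := by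
  have h : (1 : ℝ) ≤ (t : ℝ) := by exact_mod_cast ht
  unfold ZK
  positivity

theorem dK_tri (t : ℕ) (ht : 2 ≤ t) : ∀ i j k, dK t i k ≤ dK t i j + dK t j k := by
  have hZ : 0 < ZK t := ZK_pos t (by omega)
  have ht' : (2 : ℝ) ≤ (t : ℝ) := by exact_mod_cast ht
  have hA1 : 0 ≤ (t : ℝ) ^ 2 / ZK t := by positivity
  have hA2 : 2 * (t : ℝ) ^ 2 / ZK t = 2 * ((t : ℝ) ^ 2 / ZK t) := by ring
  have hB0 : 0 ≤ 4 * (t : ℝ) / ZK t := by positivity
  have hB : 4 * (t : ℝ) / ZK t ≤ 2 * ((t : ℝ) ^ 2 / ZK t) := by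
    rw [← hA2]
    apply div_le_div_of_nonneg_right _ hZ.le
    nlinarith
  refine fin_cases_add _ (fun a => ?_) ?_ ?_ <;>
    refine fin_cases_add _ (fun a' => ?_) ?_ ?_ <;>
    refine fin_cases_add _ (fun a'' => ?_) ?_ ?_ <;>
    simp only [dK_AA, dK_AB, dK_BA, dK_B01, dK_B10, dK_self] <;>
    first
      | linarith
      | (split_ifs <;> first | linarith | (exfalso; simp_all))

theorem dK_negType (t : ℕ) (ht : 2 ≤ t) : IsNegTypeSemimetric (dK t) :=
  ⟨⟨xK t, fun _ _ => rfl⟩, dK_tri t ht⟩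

theorem sum_ite_ne (t : ℕ) (a : Fin t) (c : ℝ) :
    ∑ a' : Fin t, (if a = a' then 0 else c) = ((t : ℝ) - 1) * c := by
  have e : ∀ a' : Fin t, (if a = a' then 0 else c) = c - (if a = a' then c else 0) := by
    intro a'
    split_ifs <;> ring
  simp only [e, Finset.sum_sub_distrib, Finset.sum_ite_eq, Finset.mem_univ, if_true,
    Finset.sum_const, Finset.card_univ, Fintype.card_fin, nsmul_eq_mul]
  ring

theorem dK_sum (t : ℕ) (ht : 1 ≤ t) : pairSum (dK t) = 1 := by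
  have hZ : 0 < ZK t := ZK_pos t ht
  have h2 := two_pairSum (dK t) (dK_symm t) (dK_self t)
  have h3 : ∑ i : Fin (t + 2), ∑ j : Fin (t + 2), dK t i j = 2 := by
    simp only [sum_split, dK_AA, dK_AB, dK_BA, dK_B01, dK_B10, dK_self, sum_ite_ne,
      Finset.sum_const, Finset.card_univ, Fintype.card_fin, nsmul_eq_mul]
    have hZ' : ZK t ≠ 0 := hZ.ne'
    field_simp
    unfold ZK
    ring
  linarith

theorem cKdK_sum (t : ℕ) (ht : 1 ≤ t) :
    pairSum (fun i j => cK t i j * dK t i j) = 2 * (t : ℝ) ^ 3 / ZK t := by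
  have hZ : 0 < ZK t := ZK_pos t ht
  have h2 := two_pairSum (fun i j => cK t i j * dK t i j)
    (fun i j => by rw [(cK_capacity t).1 i j, dK_symm t i j])
    (fun i => by rw [dK_self, mul_zero])
  have h3 : ∑ i : Fin (t + 2), ∑ j : Fin (t + 2), cK t i j * dK t i j
      = 4 * (t : ℝ) ^ 3 / ZK t := by
    simp only [sum_split, cK_AA, cK_AB, cK_BA, cK_BB, dK_AB, dK_BA, zero_mul, one_mul,
      Finset.sum_const, Finset.card_univ, Fintype.card_fin, nsmul_eq_mul]
    ring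
  have h4 : 4 * (t : ℝ) ^ 3 / ZK t = 2 * (2 * (t : ℝ) ^ 3 / ZK t) := by ring
  linarith

theorem cK_gl_pos (t : ℕ) (ht : 1 ≤ t) (d : Fin (t + 2) → Fin (t + 2) → ℝ)
    (hd : IsNegTypeSemimetric d) (hs : pairSum d = 1) :
    1 / ((t : ℝ) + 2) ≤ pairSum (fun i j => cK t i j * d i j) := by
  obtain ⟨⟨x, hx⟩, htri⟩ := hd
  have hsym : ∀ i j, d i j = d j i := fun i j => by rw [hx, hx, norm_sub_rev]
  have hdiag : ∀ i, d i i = 0 := fun i => by rw [hx]; simp
  have hnn : ∀ i j, 0 ≤ d i j := fun i j => by rw [hx]; positivity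
  have e0 : ∀ a : Fin t, d (Fin.natAdd t 0) (Fin.castAdd 2 a)
      = d (Fin.castAdd 2 a) (Fin.natAdd t 0) := fun a => hsym _ _
  have e1 : ∀ a : Fin t, d (Fin.natAdd t 1) (Fin.castAdd 2 a)
      = d (Fin.castAdd 2 a) (Fin.natAdd t 1) := fun a => hsym _ _
  have e2 : d (Fin.natAdd t 1) (Fin.natAdd t 0) = d (Fin.natAdd t 0) (Fin.natAdd t 1) :=
    hsym _ _
  have h2 := two_pairSum d hsym hdiag
  have h2c := two_pairSum (fun i j => cK t i j * d i j)
    (fun i j => by rw [(cK_capacity t).1 i j, hsym i j])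
    (fun i => by rw [hdiag, mul_zero])
  have hc : ∑ i : Fin (t + 2), ∑ j : Fin (t + 2), cK t i j * d i j
      = 2 * ∑ a : Fin t, (d (Fin.castAdd 2 a) (Fin.natAdd t 0)
          + d (Fin.castAdd 2 a) (Fin.natAdd t 1)) := by
    simp only [sum_split, cK_AA, cK_AB, cK_BA, cK_BB, zero_mul, one_mul, e0, e1,
      Finset.sum_add_distrib, Finset.sum_const_zero]
    ring
  have hdd : ∑ i : Fin (t + 2), ∑ j : Fin (t + 2), d i j
      = ∑ a : Fin t, ∑ a' : Fin t, d (Fin.castAdd 2 a) (Fin.castAdd 2 a')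
        + 2 * ∑ a : Fin t, (d (Fin.castAdd 2 a) (Fin.natAdd t 0)
          + d (Fin.castAdd 2 a) (Fin.natAdd t 1))
        + 2 * d (Fin.natAdd t 0) (Fin.natAdd t 1) := by
    simp only [sum_split, hdiag, e0, e1, e2, Finset.sum_add_distrib]
    ring
  have hAA : ∑ a : Fin t, ∑ a' : Fin t, d (Fin.castAdd 2 a) (Fin.castAdd 2 a')
      ≤ 2 * (t : ℝ) * ∑ a : Fin t, d (Fin.castAdd 2 a) (Fin.natAdd t 0) := by
    calc ∑ a : Fin t, ∑ a' : Fin t, d (Fin.castAdd 2 a) (Fin.castAdd 2 a')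
        ≤ ∑ a : Fin t, ∑ a' : Fin t, (d (Fin.castAdd 2 a) (Fin.natAdd t 0)
            + d (Fin.castAdd 2 a') (Fin.natAdd t 0)) := by
          refine Finset.sum_le_sum (fun a _ => Finset.sum_le_sum (fun a' _ => ?_))
          have h := htri (Fin.castAdd 2 a) (Fin.natAdd t 0) (Fin.castAdd 2 a')
          rw [e0 a'] at h
          exact h
      _ = 2 * (t : ℝ) * ∑ a : Fin t, d (Fin.castAdd 2 a) (Fin.natAdd t 0) := by
          simp only [Finset.sum_add_distrib, Finset.sum_const, Finset.card_univ,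
            Fintype.card_fin, nsmul_eq_mul]
          rw [← Finset.mul_sum]
          ring
  have hA0 : ∑ a : Fin t, d (Fin.castAdd 2 a) (Fin.natAdd t 0)
      ≤ ∑ a : Fin t, (d (Fin.castAdd 2 a) (Fin.natAdd t 0)
          + d (Fin.castAdd 2 a) (Fin.natAdd t 1)) :=
    Finset.sum_le_sum (fun a _ => le_add_of_nonneg_right (hnn _ _))
  have hBB : d (Fin.natAdd t 0) (Fin.natAdd t 1)
      ≤ ∑ a : Fin t, (d (Fin.castAdd 2 a) (Fin.natAdd t 0)
          + d (Fin.castAdd 2 a) (Fin.natAdd t 1)) := by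
    have a0 : Fin t := ⟨0, by omega⟩
    have h := htri (Fin.natAdd t 0) (Fin.castAdd 2 a0) (Fin.natAdd t 1)
    rw [e0 a0] at h
    have h' := Finset.single_le_sum
      (f := fun a : Fin t => d (Fin.castAdd 2 a) (Fin.natAdd t 0)
        + d (Fin.castAdd 2 a) (Fin.natAdd t 1))
      (fun a _ => add_nonneg (hnn _ _) (hnn _ _)) (Finset.mem_univ a0)
    exact h.trans h'
  have hAB0 : 0 ≤ ∑ a : Fin t, (d (Fin.castAdd 2 a) (Fin.natAdd t 0)
      + d (Fin.castAdd 2 a) (Fin.natAdd t 1)) :=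
    Finset.sum_nonneg (fun a _ => add_nonneg (hnn _ _) (hnn _ _))
  have ht0 : (0 : ℝ) ≤ (t : ℝ) := Nat.cast_nonneg t
  have hmul := mul_le_mul_of_nonneg_left hA0 (by positivity : (0 : ℝ) ≤ 2 * (t : ℝ))
  rw [div_le_iff₀ (by positivity)]
  nlinarith

theorem nat_mul_pred_nonneg (p : ℕ) : 0 ≤ (p : ℝ) * ((p : ℝ) - 1) := by
  rcases Nat.eq_zero_or_pos p with h | h
  · subst h
    simp
  · have h1 : (1 : ℝ) ≤ (p : ℝ) := by exact_mod_cast h
    exact mul_nonneg (by linarith) (by linarith)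

theorem cut_num (t p : ℕ) (ht : 3 ≤ t) (hp : p ≤ t) (u0 u1 : ℝ) (h0 : u0 = 0 ∨ u0 = 1)
    (h1 : u1 = 0 ∨ u1 = 1) :
    2 / ((t : ℝ) + 1) * (((p : ℝ) + u0 + u1) * ((t : ℝ) + 2 - ((p : ℝ) + u0 + u1)))
      ≤ (p : ℝ) * (1 - u0) + (p : ℝ) * (1 - u1) + u0 * ((t : ℝ) - p) + u1 * ((t : ℝ) - p) := by
  have hT : (3 : ℝ) ≤ (t : ℝ) := by exact_mod_cast ht
  have hP : (p : ℝ) ≤ (t : ℝ) := by exact_mod_cast hp
  have hP0 : (0 : ℝ) ≤ (p : ℝ) := Nat.cast_nonneg p
  have hpp := nat_mul_pred_nonneg p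
  have hqq : 0 ≤ ((t : ℝ) - p) * ((t : ℝ) - p - 1) := by
    have h := nat_mul_pred_nonneg (t - p)
    rw [Nat.cast_sub hp] at h
    exact h
  have hsum : 2 ≤ (p : ℝ) * ((p : ℝ) - 1) + ((t : ℝ) - p) * ((t : ℝ) - p - 1) := by
    by_cases h2 : 2 ≤ p
    · have h2' : (2 : ℝ) ≤ (p : ℝ) := by exact_mod_cast h2
      nlinarith
    · have h3 : p + 2 ≤ t := by omega
      have h3' : (p : ℝ) + 2 ≤ (t : ℝ) := by exact_mod_cast h3
      nlinarith
  rw [div_mul_eq_mul_div, div_le_iff₀ (by positivity)]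
  rcases h0 with rfl | rfl <;> rcases h1 with rfl | rfl <;> nlinarith

theorem cK_cut (t : ℕ) (ht : 3 ≤ t) (S : Finset (Fin (t + 2))) :
    2 / ((t : ℝ) + 1) * ((S.card : ℝ) * ((t : ℝ) + 2 - S.card)) ≤ cutCap (cK t) S := by
  have e : ∀ i j : Fin (t + 2), (if i ∈ S ∧ j ∉ S then cK t i j else 0)
      = (if i ∈ S then (1 : ℝ) else 0) * (1 - (if j ∈ S then (1 : ℝ) else 0)) * cK t i j := by
    intro i j
    by_cases hi : i ∈ S <;> by_cases hj : j ∈ S <;> simp [hi, hj]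
  have hcard : ((univ.filter (fun a : Fin t => Fin.castAdd 2 a ∈ S)).card : ℝ)
      = ∑ a : Fin t, (if Fin.castAdd 2 a ∈ S then (1 : ℝ) else 0) := by
    rw [Finset.sum_boole]
  have hple : (univ.filter (fun a : Fin t => Fin.castAdd 2 a ∈ S)).card ≤ t := by
    have h := Finset.card_filter_le (univ : Finset (Fin t)) (fun a : Fin t => Fin.castAdd 2 a ∈ S)
    rwa [Finset.card_univ, Fintype.card_fin] at h
  have hA : ∀ c0 : ℝ, ∑ a : Fin t, (if Fin.castAdd 2 a ∈ S then (1 : ℝ) else 0) * c0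
      = ((univ.filter (fun a : Fin t => Fin.castAdd 2 a ∈ S)).card : ℝ) * c0 := by
    intro c0
    rw [hcard, Finset.sum_mul]
  have hB : ∀ c0 : ℝ, ∑ a : Fin t, c0 * (1 - (if Fin.castAdd 2 a ∈ S then (1 : ℝ) else 0))
      = c0 * ((t : ℝ) - (univ.filter (fun a : Fin t => Fin.castAdd 2 a ∈ S)).card) := by
    intro c0
    rw [hcard, ← Finset.mul_sum, Finset.sum_sub_distrib, Finset.sum_const, Finset.card_univ,
      Fintype.card_fin, nsmul_eq_mul, mul_one]
  have h0 : (if Fin.natAdd t (0 : Fin 2) ∈ S then (1 : ℝ) else 0) = 0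
      ∨ (if Fin.natAdd t (0 : Fin 2) ∈ S then (1 : ℝ) else 0) = 1 := by
    split_ifs <;> simp
  have h1 : (if Fin.natAdd t (1 : Fin 2) ∈ S then (1 : ℝ) else 0) = 0
      ∨ (if Fin.natAdd t (1 : Fin 2) ∈ S then (1 : ℝ) else 0) = 1 := by
    split_ifs <;> simp
  have hnum := cut_num t _ ht hple _ _ h0 h1
  have hS : (S.card : ℝ) = ((univ.filter (fun a : Fin t => Fin.castAdd 2 a ∈ S)).card : ℝ)
      + (if Fin.natAdd t (0 : Fin 2) ∈ S then (1 : ℝ) else 0)
      + (if Fin.natAdd t (1 : Fin 2) ∈ S then (1 : ℝ) else 0) := by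
    rw [card_eq_sum, sum_split, hcard]
  have hcut : cutCap (cK t) S
      = ((univ.filter (fun a : Fin t => Fin.castAdd 2 a ∈ S)).card : ℝ)
          * (1 - (if Fin.natAdd t (0 : Fin 2) ∈ S then (1 : ℝ) else 0))
        + ((univ.filter (fun a : Fin t => Fin.castAdd 2 a ∈ S)).card : ℝ)
          * (1 - (if Fin.natAdd t (1 : Fin 2) ∈ S then (1 : ℝ) else 0))
        + (if Fin.natAdd t (0 : Fin 2) ∈ S then (1 : ℝ) else 0)
          * ((t : ℝ) - (univ.filter (fun a : Fin t => Fin.castAdd 2 a ∈ S)).card)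
        + (if Fin.natAdd t (1 : Fin 2) ∈ S then (1 : ℝ) else 0)
          * ((t : ℝ) - (univ.filter (fun a : Fin t => Fin.castAdd 2 a ∈ S)).card) := by
    rw [cutCap_eq]
    simp only [e, sum_split, cK_AA, cK_AB, cK_BA, cK_BB, mul_zero, mul_one,
      Finset.sum_const_zero, Finset.sum_add_distrib, hA, hB]
    ring
  rw [hS, hcut]
  exact hnum

theorem gap_factor (t : ℕ) (ht : 1 ≤ t) :
    (1 + 4 / ((t : ℝ) ^ 2 * ((t : ℝ) + 1))) * (2 * (t : ℝ) ^ 3 / ZK t) = 2 / ((t : ℝ) + 1) := by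
  have hZ : ZK t ≠ 0 := (ZK_pos t ht).ne'
  have ht' : (1 : ℝ) ≤ (t : ℝ) := by exact_mod_cast ht
  have ht0 : (t : ℝ) ≠ 0 := by linarith
  have ht1 : (t : ℝ) + 1 ≠ 0 := by linarith
  have hZ' : (t : ℝ) ^ 4 + (t : ℝ) ^ 3 + 4 * (t : ℝ) ≠ 0 := hZ
  unfold ZK
  field_simp

/-- On `t + 2 ≥ 5` vertices the capacities of `K_{t,2}` have positive Goemans-Linial value and
integrality gap at least `1 + 4 / (t^2 (t + 1))`. -/
theorem family_gap (t : ℕ) (ht : 3 ≤ t) :
    ∃ c : Fin (t + 2) → Fin (t + 2) → ℝ, IsCapacity c ∧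
      (∀ d : Fin (t + 2) → Fin (t + 2) → ℝ, IsNegTypeSemimetric d → pairSum d = 1 →
        1 / ((t : ℝ) + 2) ≤ pairSum (fun i j => c i j * d i j)) ∧
      ∃ d : Fin (t + 2) → Fin (t + 2) → ℝ, IsNegTypeSemimetric d ∧ pairSum d = 1 ∧
        ∀ S : Finset (Fin (t + 2)),
          (1 + 4 / ((t : ℝ) ^ 2 * ((t : ℝ) + 1))) * pairSum (fun i j => c i j * d i j)
              * ((S.card : ℝ) * ((t : ℝ) + 2 - S.card))
            ≤ cutCap c S := by
  refine ⟨cK t, cK_capacity t, fun d hd hs => cK_gl_pos t (by omega) d hd hs, dK t,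
    dK_negType t (by omega), dK_sum t (by omega), fun S => ?_⟩
  rw [cKdK_sum t (by omega), gap_factor t (by omega)]
  exact cK_cut t ht S

/-- The same statement with the number of vertices `n ≥ 5` as the parameter. -/
theorem gap_of_five_le (n : ℕ) (hn : 5 ≤ n) :
    ∃ c : Fin n → Fin n → ℝ, IsCapacity c ∧
      (∀ d : Fin n → Fin n → ℝ, IsNegTypeSemimetric d → pairSum d = 1 →
        1 / (n : ℝ) ≤ pairSum (fun i j => c i j * d i j)) ∧
      ∃ d : Fin n → Fin n → ℝ, IsNegTypeSemimetric d ∧ pairSum d = 1 ∧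
        ∀ S : Finset (Fin n), S.Nonempty → Sᶜ.Nonempty →
          (1 + 4 / (((n : ℝ) - 2) ^ 2 * ((n : ℝ) - 1))) * pairSum (fun i j => c i j * d i j)
              * ((S.card : ℝ) * ((n : ℝ) - S.card))
            ≤ cutCap c S := by
  obtain ⟨t, rfl⟩ : ∃ t, n = t + 2 := ⟨n - 2, by omega⟩
  have e1 : ((t + 2 : ℕ) : ℝ) = (t : ℝ) + 2 := by push_cast; ring
  have e2 : (t : ℝ) + 2 - 2 = (t : ℝ) := by ring
  have e3 : (t : ℝ) + 2 - 1 = (t : ℝ) + 1 := by ring
  obtain ⟨c, hc, hpos, d, hd, hs, hcut⟩ := family_gap t (by omega)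
  refine ⟨c, hc, ?_, d, hd, hs, ?_⟩
  · intro d' hd' hs'
    rw [e1]
    exact hpos d' hd' hs'
  · intro S _ _
    rw [e1, e2, e3]
    exact hcut S

end Vale.Agent.H85.GL
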