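import Vale.Agent.H85.GLDefs

namespace Vale.Agent.H85.GL

open Finset

theorem cutCap_eq {n : ℕ} (c : Fin n → Fin n → ℝ) (S : Finset (Fin n)) :
    cutCap c S = ∑ i : Fin n, ∑ j : Fin n, if i ∈ S ∧ j ∉ S then c i j else 0 := by
  unfold cutCap
  rw [← Finset.sum_filter_add_sum_filter_not univ (fun i => i ∈ S)]
  have h2 : ∑ i ∈ univ.filter (fun i => ¬ i ∈ S), ∑ j : Fin n,
      (if i ∈ S ∧ j ∉ S then c i j else 0) = 0 := by
    refine Finset.sum_eq_zero (fun i hi => Finset.sum_eq_zero (fun j _ => ?_))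
    have hi' : i ∉ S := (Finset.mem_filter.1 hi).2
    simp [hi']
  rw [h2, add_zero]
  have hS : univ.filter (fun i => i ∈ S) = S := by
    ext i; simp
  rw [hS]
  refine Finset.sum_congr rfl (fun i hi => ?_)
  rw [← Finset.sum_filter_add_sum_filter_not univ (fun j => j ∉ S)]
  have h3 : ∑ j ∈ univ.filter (fun j => ¬ j ∉ S), (if i ∈ S ∧ j ∉ S then c i j else 0) = 0 := by
    refine Finset.sum_eq_zero (fun j hj => ?_)
    have hj' : ¬ j ∉ S := (Finset.mem_filter.1 hj).2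
    simp [hj']
  rw [h3, add_zero]
  have hC : univ.filter (fun j => j ∉ S) = Sᶜ := by
    ext j; simp
  rw [hC]
  refine Finset.sum_congr rfl (fun j hj => ?_)
  have hj' : j ∉ S := Finset.mem_compl.1 hj
  simp [hi, hj']

theorem card_eq_sum {n : ℕ} (S : Finset (Fin n)) :
    (S.card : ℝ) = ∑ i : Fin n, if i ∈ S then (1 : ℝ) else 0 := by
  rw [Finset.sum_boole]
  congr 2
  ext i; simp

theorem four_core (d01 d02 d03 d12 d13 d23 c01 c02 c03 c12 c13 c23 G : ℝ)
    (t0 : d12 ≤ d01 + d02) (t1 : d03 ≤ d01 + d13) (t2 : d03 ≤ d02 + d23) (t3 : d12 ≤ d13 + d23)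
    (m1 : d01 + d23 ≤ d03 + d12) (m2 : d02 + d13 ≤ d03 + d12)
    (hsum : d01 + d02 + d03 + d12 + d13 + d23 = 1)
    (hG : G = c01 * d01 + c02 * d02 + c03 * d03 + c12 * d12 + c13 * d13 + c23 * d23)
    (h0 : 3 * G < c01 + c02 + c03) (h1 : 3 * G < c01 + c12 + c13)
    (h2 : 3 * G < c02 + c12 + c23) (h3 : 3 * G < c03 + c13 + c23)
    (h01 : 4 * G < c02 + c03 + c12 + c13) (h02 : 4 * G < c01 + c03 + c12 + c23) : False := by
  have p0 : 0 ≤ (d01 + d02 - d12) * (c01 + c02 + c03 - 3 * G) :=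
    mul_nonneg (by linarith) (by linarith)
  have p1 : 0 ≤ (d01 + d13 - d03) * (c01 + c12 + c13 - 3 * G) :=
    mul_nonneg (by linarith) (by linarith)
  have p2 : 0 ≤ (d02 + d23 - d03) * (c02 + c12 + c23 - 3 * G) :=
    mul_nonneg (by linarith) (by linarith)
  have p3 : 0 ≤ (d13 + d23 - d12) * (c03 + c13 + c23 - 3 * G) :=
    mul_nonneg (by linarith) (by linarith)
  have p4 : 0 ≤ (d03 + d12 - d01 - d23) * (c02 + c03 + c12 + c13 - 4 * G) :=
    mul_nonneg (by linarith) (by linarith)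
  have p5 : 0 ≤ (d03 + d12 - d02 - d13) * (c01 + c03 + c12 + c23 - 4 * G) :=
    mul_nonneg (by linarith) (by linarith)
  have key : (d01 + d02 - d12) * (c01 + c02 + c03 - 3 * G)
      + (d01 + d13 - d03) * (c01 + c12 + c13 - 3 * G)
      + (d02 + d23 - d03) * (c02 + c12 + c23 - 3 * G)
      + (d13 + d23 - d12) * (c03 + c13 + c23 - 3 * G)
      + (d03 + d12 - d01 - d23) * (c02 + c03 + c12 + c13 - 4 * G)
      + (d03 + d12 - d02 - d13) * (c01 + c03 + c12 + c23 - 4 * G)
      = 2 * G * (1 - (d01 + d02 + d03 + d12 + d13 + d23)) := by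
    rw [hG]; ring
  rw [hsum, sub_self, mul_zero] at key
  have a0 : d01 + d02 - d12 = 0 := by
    have z : (d01 + d02 - d12) * (c01 + c02 + c03 - 3 * G) = 0 := by linarith
    rcases mul_eq_zero.1 z with h | h
    · exact h
    · linarith
  have a1 : d01 + d13 - d03 = 0 := by
    have z : (d01 + d13 - d03) * (c01 + c12 + c13 - 3 * G) = 0 := by linarith
    rcases mul_eq_zero.1 z with h | h
    · exact h
    · linarith
  have a2 : d02 + d23 - d03 = 0 := by
    have z : (d02 + d23 - d03) * (c02 + c12 + c23 - 3 * G) = 0 := by linarith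
    rcases mul_eq_zero.1 z with h | h
    · exact h
    · linarith
  have a3 : d13 + d23 - d12 = 0 := by
    have z : (d13 + d23 - d12) * (c03 + c13 + c23 - 3 * G) = 0 := by linarith
    rcases mul_eq_zero.1 z with h | h
    · exact h
    · linarith
  have a4 : d03 + d12 - d01 - d23 = 0 := by
    have z : (d03 + d12 - d01 - d23) * (c02 + c03 + c12 + c13 - 4 * G) = 0 := by linarith
    rcases mul_eq_zero.1 z with h | h
    · exact h
    · linarith
  have a5 : d03 + d12 - d02 - d13 = 0 := by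
    have z : (d03 + d12 - d02 - d13) * (c01 + c03 + c12 + c23 - 4 * G) = 0 := by linarith
    rcases mul_eq_zero.1 z with h | h
    · exact h
    · linarith
  linarith

theorem three_core (d01 d02 d12 c01 c02 c12 G : ℝ)
    (t0 : d12 ≤ d01 + d02) (t1 : d02 ≤ d01 + d12) (t2 : d01 ≤ d02 + d12)
    (hsum : d01 + d02 + d12 = 1)
    (hG : G = c01 * d01 + c02 * d02 + c12 * d12)
    (h0 : 2 * G < c01 + c02) (h1 : 2 * G < c01 + c12) (h2 : 2 * G < c02 + c12) : False := by
  have p0 : 0 ≤ (d01 + d02 - d12) * (c01 + c02 - 2 * G) :=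
    mul_nonneg (by linarith) (by linarith)
  have p1 : 0 ≤ (d01 + d12 - d02) * (c01 + c12 - 2 * G) :=
    mul_nonneg (by linarith) (by linarith)
  have p2 : 0 ≤ (d02 + d12 - d01) * (c02 + c12 - 2 * G) :=
    mul_nonneg (by linarith) (by linarith)
  have key : (d01 + d02 - d12) * (c01 + c02 - 2 * G)
      + (d01 + d12 - d02) * (c01 + c12 - 2 * G)
      + (d02 + d12 - d01) * (c02 + c12 - 2 * G)
      = 2 * G * (1 - (d01 + d02 + d12)) := by
    rw [hG]; ring
  rw [hsum, sub_self, mul_zero] at key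
  have a0 : d01 + d02 - d12 = 0 := by
    have z : (d01 + d02 - d12) * (c01 + c02 - 2 * G) = 0 := by linarith
    rcases mul_eq_zero.1 z with h | h
    · exact h
    · linarith
  have a1 : d01 + d12 - d02 = 0 := by
    have z : (d01 + d12 - d02) * (c01 + c12 - 2 * G) = 0 := by linarith
    rcases mul_eq_zero.1 z with h | h
    · exact h
    · linarith
  have a2 : d02 + d12 - d01 = 0 := by
    have z : (d02 + d12 - d01) * (c02 + c12 - 2 * G) = 0 := by linarith
    rcases mul_eq_zero.1 z with h | h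
    · exact h
    · linarith
  linarith

theorem four_any (d01 d02 d03 d12 d13 d23 c01 c02 c03 c12 c13 c23 G : ℝ)
    (a0 : d12 ≤ d01 + d02) (a1 : d03 ≤ d01 + d13) (a2 : d03 ≤ d02 + d23) (a3 : d12 ≤ d13 + d23)
    (b0 : d23 ≤ d03 + d02) (b1 : d01 ≤ d03 + d13) (b2 : d01 ≤ d02 + d12) (b3 : d23 ≤ d13 + d12)
    (e0 : d13 ≤ d01 + d03) (e1 : d02 ≤ d01 + d12) (e2 : d02 ≤ d03 + d23) (e3 : d13 ≤ d12 + d23)
    (hsum : d01 + d02 + d03 + d12 + d13 + d23 = 1)
    (hG : G = c01 * d01 + c02 * d02 + c03 * d03 + c12 * d12 + c13 * d13 + c23 * d23)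
    (h0 : 3 * G < c01 + c02 + c03) (h1 : 3 * G < c01 + c12 + c13)
    (h2 : 3 * G < c02 + c12 + c23) (h3 : 3 * G < c03 + c13 + c23)
    (h01 : 4 * G < c02 + c03 + c12 + c13) (h02 : 4 * G < c01 + c03 + c12 + c23)
    (h03 : 4 * G < c01 + c02 + c13 + c23) : False := by
  rcases le_total (d01 + d23) (d03 + d12) with m1 | m1
  · rcases le_total (d02 + d13) (d03 + d12) with m2 | m2
    · exact four_core d01 d02 d03 d12 d13 d23 c01 c02 c03 c12 c13 c23 G a0 a1 a2 a3 m1 m2 hsum hG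
        h0 h1 h2 h3 h01 h02
    · exact four_core d01 d03 d02 d13 d12 d23 c01 c03 c02 c13 c12 c23 G e0 e1 e2 e3
        (by linarith) (by linarith) (by linarith) (by rw [hG]; ring)
        (by linarith) (by linarith) (by linarith) (by linarith) (by linarith) (by linarith)
  · rcases le_total (d02 + d13) (d01 + d23) with m2 | m2
    · exact four_core d03 d02 d01 d23 d13 d12 c03 c02 c01 c23 c13 c12 G b0 b1 b2 b3
        (by linarith) (by linarith) (by linarith) (by rw [hG]; ring)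
        (by linarith) (by linarith) (by linarith) (by linarith) (by linarith) (by linarith)
    · exact four_core d01 d03 d02 d13 d12 d23 c01 c03 c02 c13 c12 c23 G e0 e1 e2 e3
        (by linarith) (by linarith) (by linarith) (by rw [hG]; ring)
        (by linarith) (by linarith) (by linarith) (by linarith) (by linarith) (by linarith)

/-- For at most four vertices, every semimetric with unit total is beaten by a cut. -/
theorem small_exact (n : ℕ) (hn : n ≤ 4) (c : Fin n → Fin n → ℝ) (hc : IsCapacity c)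
    (d : Fin n → Fin n → ℝ) (hsym : ∀ i j, d i j = d j i)
    (htri : ∀ i j k, d i k ≤ d i j + d j k) (hd : pairSum d = 1) :
    ∃ S : Finset (Fin n), S.Nonempty ∧ Sᶜ.Nonempty ∧
      cutCap c S ≤ pairSum (fun i j => c i j * d i j) * ((S.card : ℝ) * ((n : ℝ) - S.card)) := by
  by_contra hcon
  push Not at hcon
  obtain ⟨hcs, -, -⟩ := hc
  interval_cases n
  · simp [pairSum] at hd
  · simp [pairSum] at hd
  · have e : d 0 1 = 1 := by
      have h := hd
      simp [pairSum, Fin.sum_univ_two] at h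
      linarith
    have eG : pairSum (fun i j => c i j * d i j) = c 0 1 * d 0 1 := by
      simp [pairSum, Fin.sum_univ_two]
    have h := hcon {0} (Finset.singleton_nonempty 0) ⟨1, by simp⟩
    rw [cutCap_eq, eG, e] at h
    norm_num [Fin.sum_univ_two] at h
  · have e : d 0 1 + d 0 2 + d 1 2 = 1 := by
      have h := hd
      simp [pairSum, Fin.sum_univ_three] at h
      linarith
    have eG : pairSum (fun i j => c i j * d i j)
        = c 0 1 * d 0 1 + c 0 2 * d 0 2 + c 1 2 * d 1 2 := by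
      simp [pairSum, Fin.sum_univ_three]
    have h0 := hcon {0} (Finset.singleton_nonempty 0) ⟨1, by simp⟩
    have h1 := hcon {1} (Finset.singleton_nonempty 1) ⟨0, by simp⟩
    have h2 := hcon {2} (Finset.singleton_nonempty 2) ⟨0, by simp⟩
    rw [cutCap_eq] at h0 h1 h2
    simp (config := {decide := true}) [Fin.sum_univ_three] at h0 h1 h2
    norm_num at h0 h1 h2
    exact three_core (d 0 1) (d 0 2) (d 1 2) (c 0 1) (c 0 2) (c 1 2) _
      (by linarith [htri 1 0 2, hsym 1 0]) (by linarith [htri 0 1 2]) (by linarith [htri 0 2 1, hsym 2 1])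
      e eG (by linarith) (by linarith [hcs 1 0]) (by linarith [hcs 2 0, hcs 2 1])
  · have e : d 0 1 + d 0 2 + d 0 3 + d 1 2 + d 1 3 + d 2 3 = 1 := by
      have h := hd
      simp [pairSum, Fin.sum_univ_four] at h
      linarith
    have eG : pairSum (fun i j => c i j * d i j)
        = c 0 1 * d 0 1 + c 0 2 * d 0 2 + c 0 3 * d 0 3 + c 1 2 * d 1 2 + c 1 3 * d 1 3
          + c 2 3 * d 2 3 := by
      simp [pairSum, Fin.sum_univ_four]
      ring
    have k01 : ({0, 1} : Finset (Fin 4)).card = 2 := by decide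
    have k02 : ({0, 2} : Finset (Fin 4)).card = 2 := by decide
    have k03 : ({0, 3} : Finset (Fin 4)).card = 2 := by decide
    have h0 := hcon {0} (Finset.singleton_nonempty 0) ⟨1, by simp⟩
    have h1 := hcon {1} (Finset.singleton_nonempty 1) ⟨0, by simp⟩
    have h2 := hcon {2} (Finset.singleton_nonempty 2) ⟨0, by simp⟩
    have h3 := hcon {3} (Finset.singleton_nonempty 3) ⟨0, by simp⟩
    have h01 := hcon {0, 1} ⟨0, by simp⟩ ⟨2, by simp⟩
    have h02 := hcon {0, 2} ⟨0, by simp⟩ ⟨1, by simp⟩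
    have h03 := hcon {0, 3} ⟨0, by simp⟩ ⟨1, by simp⟩
    rw [cutCap_eq] at h0 h1 h2 h3 h01 h02 h03
    rw [k01] at h01
    rw [k02] at h02
    rw [k03] at h03
    simp (config := {decide := true}) [Fin.sum_univ_four] at h0 h1 h2 h3 h01 h02 h03
    norm_num at h0 h1 h2 h3 h01 h02 h03
    exact four_any (d 0 1) (d 0 2) (d 0 3) (d 1 2) (d 1 3) (d 2 3)
      (c 0 1) (c 0 2) (c 0 3) (c 1 2) (c 1 3) (c 2 3) _
      (by linarith [htri 1 0 2, hsym 1 0]) (by linarith [htri 0 1 3])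
      (by linarith [htri 0 2 3]) (by linarith [htri 1 3 2, hsym 3 2])
      (by linarith [htri 2 0 3, hsym 2 0]) (by linarith [htri 0 3 1, hsym 3 1])
      (by linarith [htri 0 2 1, hsym 2 1]) (by linarith [htri 2 1 3, hsym 2 1])
      (by linarith [htri 1 0 3, hsym 1 0]) (by linarith [htri 0 1 2])
      (by linarith [htri 0 3 2, hsym 3 2]) (by linarith [htri 1 2 3])
      e eG
      (by linarith) (by linarith [hcs 1 0]) (by linarith [hcs 2 0, hcs 2 1])
      (by linarith [hcs 3 0, hcs 3 1, hcs 3 2])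
      (by linarith [hcs 1 0, hcs 1 2, hcs 1 3]) (by linarith [hcs 2 1, hcs 2 0, hcs 2 3])
      (by linarith [hcs 3 0, hcs 3 1, hcs 3 2])

/-- Capacities of the complete bipartite graph with sides `{0, 1, 2}` and `{3, 4}`. -/
def c5 : Fin 5 → Fin 5 → ℝ :=
  ![![0, 0, 0, 1, 1], ![0, 0, 0, 1, 1], ![0, 0, 0, 1, 1], ![1, 1, 1, 0, 0], ![1, 1, 1, 0, 0]]

/-- Integer points of `ℝ^5` whose squared distances are `18`, `9`, `12`. -/
def v5 : Fin 5 → Fin 5 → ℝ :=
  ![![-2, 1, 1, 0, 0], ![1, -2, 1, 0, 0], ![1, 1, -2, 0, 0], ![1, 1, 1, 0, 0],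
    ![-1, -1, -1, 0, 0]]

/-- The points `v5` scaled so that the squared distances add up to one. -/
noncomputable def x5 (i : Fin 5) : EuclideanSpace ℝ (Fin 5) :=
  (Real.sqrt 120)⁻¹ • WithLp.toLp 2 (v5 i)

/-- The squared distances of the points `x5`. -/
noncomputable def d5 (i j : Fin 5) : ℝ := ‖x5 i - x5 j‖ ^ 2

/-- The table of `120 * d5`. -/
def dN : Fin 5 → Fin 5 → ℕ :=
  ![![0, 18, 18, 9, 9], ![18, 0, 18, 9, 9], ![18, 18, 0, 9, 9], ![9, 9, 9, 0, 12],
    ![9, 9, 9, 12, 0]]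

theorem d5_eq (i j : Fin 5) : d5 i j = (∑ k : Fin 5, (v5 i k - v5 j k) ^ 2) / 120 := by
  unfold d5 x5
  rw [← smul_sub, norm_smul, mul_pow, EuclideanSpace.real_norm_sq_eq, Real.norm_eq_abs, sq_abs,
    inv_pow, Real.sq_sqrt (by norm_num : (0 : ℝ) ≤ 120)]
  simp only [WithLp.ofLp_sub, Pi.sub_apply]
  ring

theorem d5_val (i j : Fin 5) : d5 i j = (dN i j : ℝ) / 120 := by
  rw [d5_eq]
  fin_cases i <;> fin_cases j <;> simp [v5, dN, Fin.sum_univ_five] <;> norm_num

theorem dN_tri : ∀ i j k : Fin 5, dN i k ≤ dN i j + dN j k := by decide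

theorem d5_negType : IsNegTypeSemimetric d5 := by
  refine ⟨⟨x5, fun i j => rfl⟩, fun i j k => ?_⟩
  rw [d5_val, d5_val, d5_val]
  have h : (dN i k : ℝ) ≤ (dN i j : ℝ) + (dN j k : ℝ) := by exact_mod_cast dN_tri i j k
  linarith

theorem d5_sum : pairSum d5 = 1 := by
  unfold pairSum
  simp only [d5_val]
  simp (config := {decide := true}) [Fin.sum_univ_five, dN]
  norm_num

theorem c5d5_sum : pairSum (fun i j => c5 i j * d5 i j) = 9 / 20 := by
  unfold pairSum
  simp only [d5_val]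
  simp (config := {decide := true}) [Fin.sum_univ_five, dN, c5]
  norm_num

theorem c5_capacity : IsCapacity c5 := by
  refine ⟨fun i j => ?_, fun i j => ?_, fun i => ?_⟩
  · fin_cases i <;> fin_cases j <;> simp [c5]
  · fin_cases i <;> fin_cases j <;> simp [c5]
  · fin_cases i <;> simp [c5]

theorem c5_gl_pos (d : Fin 5 → Fin 5 → ℝ) (hd : IsNegTypeSemimetric d) (hs : pairSum d = 1) :
    1 / 4 ≤ pairSum (fun i j => c5 i j * d i j) := by
  obtain ⟨⟨x, hx⟩, htri⟩ := hd
  have hsym : ∀ i j, d i j = d j i := fun i j => by rw [hx, hx, norm_sub_rev]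
  have hnn : ∀ i j, 0 ≤ d i j := fun i j => by rw [hx]; positivity
  have e : d 0 1 + d 0 2 + d 0 3 + d 0 4 + d 1 2 + d 1 3 + d 1 4 + d 2 3 + d 2 4 + d 3 4 = 1 := by
    have h := hs
    simp (config := {decide := true}) [pairSum, Fin.sum_univ_five] at h
    linarith
  have eG : pairSum (fun i j => c5 i j * d i j)
      = d 0 3 + d 0 4 + d 1 3 + d 1 4 + d 2 3 + d 2 4 := by
    simp (config := {decide := true}) [pairSum, Fin.sum_univ_five, c5]
    ring
  rw [eG]
  linarith [htri 0 3 1, hsym 3 1, htri 0 3 2, hsym 3 2, htri 1 3 2, htri 3 0 4, hsym 3 0,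
    hnn 0 3, hnn 0 4, hnn 1 3, hnn 1 4, hnn 2 3, hnn 2 4]

theorem c5_cut (S : Finset (Fin 5)) (hS : S.Nonempty) (hS' : Sᶜ.Nonempty) :
    (10 / 9 : ℝ) * pairSum (fun i j => c5 i j * d5 i j) * ((S.card : ℝ) * (5 - S.card))
      ≤ cutCap c5 S := by
  rw [c5d5_sum, cutCap_eq, card_eq_sum]
  have hne : (0 : Fin 5) ∈ S ∨ (1 : Fin 5) ∈ S ∨ (2 : Fin 5) ∈ S ∨ (3 : Fin 5) ∈ S
      ∨ (4 : Fin 5) ∈ S := by
    obtain ⟨x, hx⟩ := hS
    fin_cases x <;> simp_all
  have hne' : (0 : Fin 5) ∉ S ∨ (1 : Fin 5) ∉ S ∨ (2 : Fin 5) ∉ S ∨ (3 : Fin 5) ∉ S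
      ∨ (4 : Fin 5) ∉ S := by
    obtain ⟨x, hx⟩ := hS'
    rw [Finset.mem_compl] at hx
    fin_cases x <;> simp_all
  simp only [Fin.sum_univ_five]
  by_cases h0 : (0 : Fin 5) ∈ S <;> by_cases h1 : (1 : Fin 5) ∈ S <;>
    by_cases h2 : (2 : Fin 5) ∈ S <;> by_cases h3 : (3 : Fin 5) ∈ S <;>
    by_cases h4 : (4 : Fin 5) ∈ S <;>
    simp [h0, h1, h2, h3, h4, c5] at hne hne' ⊢ <;> norm_num

end Vale.Agent.H85.GL
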